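import Mathlib.Probability.Moments.Basic
import Mathlib.Analysis.Convex.SpecificFunctions.Basic
import Mathlib.Analysis.SpecialFunctions.Pow.Real

/-!
# P146: lower bounds of the upper tail from two exponential moments
-/

open MeasureTheory ProbabilityTheory

namespace Vale.Agent.P146.Ld

variable {Ω : Type*} [MeasurableSpace Ω] {μ : Measure Ω} [IsProbabilityMeasure μ] {X : Ω → ℝ}

/-- The normalized logarithmic moments increase. -/
theorem cor_mono (hX : ∀ x : ℝ, Integrable (fun ω => Real.exp (x * X ω)) μ) {x y : ℝ} (hx : 0 < x)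
    (hxy : x ≤ y) : 1 / x * Real.log (∫ ω, Real.exp (x * X ω) ∂μ) ≤
      1 / y * Real.log (∫ ω, Real.exp (y * X ω) ∂μ) := by
  have hy : 0 < y := hx.trans_le hxy
  have hix := hX x
  have hiy := hX y
  have hpx : 0 < ∫ ω, Real.exp (x * X ω) ∂μ := integral_exp_pos hix
  have hpy : 0 < ∫ ω, Real.exp (y * X ω) ∂μ := integral_exp_pos hiy
  set a := Real.log (∫ ω, Real.exp (y * X ω) ∂μ) with ha
  have hexpa : Real.exp a = ∫ ω, Real.exp (y * X ω) ∂μ := Real.exp_log hpy
  set w := x / y with hw
  have hw0 : 0 ≤ w := by positivity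
  have hw1 : w ≤ 1 := (div_le_one hy).2 hxy
  have hpt : ∀ ω, Real.exp (x * X ω) ≤ Real.exp (w * a) * (w * Real.exp (-a) * Real.exp (y * X ω) +
      (1 - w)) := by
    intro g
    have h1 := convexOn_exp.2 (Set.mem_univ (y * X g - a)) (Set.mem_univ 0) hw0
      (sub_nonneg.2 hw1) (by ring)
    simp only [smul_eq_mul, mul_zero, add_zero, Real.exp_zero, mul_one] at h1
    have h2 : Real.exp (x * X g) = Real.exp (w * a) * Real.exp (w * (y * X g - a)) := by
      rw [← Real.exp_add]
      congr 1
      rw [hw]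
      field_simp
      ring
    have h3 : Real.exp (y * X g - a) = Real.exp (-a) * Real.exp (y * X g) := by
      rw [← Real.exp_add]
      congr 1
      ring
    rw [h2]
    refine mul_le_mul_of_nonneg_left ?_ (Real.exp_pos _).le
    rw [h3] at h1
    linarith
  have h4 : ∫ ω, Real.exp (x * X ω) ∂μ ≤ Real.exp (w * a) := by
    have hi : Integrable (fun g => Real.exp (w * a) * (w * Real.exp (-a) * Real.exp (y * X g) +
        (1 - w))) μ := ((hiy.const_mul (w * Real.exp (-a))).add
      (integrable_const (1 - w))).const_mul (Real.exp (w * a))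
    refine (integral_mono hix hi hpt).trans (le_of_eq ?_)
    rw [integral_const_mul, integral_add (hiy.const_mul _) (integrable_const _),
      integral_const_mul, ← hexpa, mul_assoc, ← Real.exp_add]
    simp
  have h8 : Real.log (∫ ω, Real.exp (x * X ω) ∂μ) ≤ w * a :=
    (Real.log_le_iff_le_exp hpx).2 h4
  calc 1 / x * Real.log (∫ ω, Real.exp (x * X ω) ∂μ) ≤ 1 / x * (w * a) :=
        mul_le_mul_of_nonneg_left h8 (by positivity)
    _ = 1 / y * a := by
        rw [hw]
        field_simp

/-- A lower bound of the upper tail: `E exp (x X) ≥ u²`, `E exp (2 x X) ≤ exp (x T)`, the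
threshold `S` with `exp (x S) ≤ u`, `u ≥ 2`. -/
theorem cor_tail (hm : Measurable X) (hX : ∀ x : ℝ, Integrable (fun ω => Real.exp (x * X ω)) μ)
    {x S T u : ℝ} (hx : 0 < x) (hu : 2 ≤ u) (h1 : u ^ 2 ≤ ∫ ω, Real.exp (x * X ω) ∂μ)
    (h2 : ∫ ω, Real.exp (2 * x * X ω) ∂μ ≤ Real.exp (x * T)) (hS : Real.exp (x * S) ≤ u) :
    Real.exp (-(x * T)) ≤ μ.real {ω | S ≤ X ω} := by
  have hms : MeasurableSet {ω | S ≤ X ω} := measurableSet_le measurable_const hm
  have hpt : ∀ ω, Real.exp (x * X ω) ≤ Real.exp (x * S) +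
      Real.exp (x * T) * ({ω | S ≤ X ω}.indicator 1 ω) +
        Real.exp (-(x * T)) * Real.exp (2 * x * X ω) := by
    intro ω
    have p1 := Real.exp_pos (x * S)
    have p2 := Real.exp_pos (x * T)
    have p3 : 0 < Real.exp (-(x * T)) * Real.exp (2 * x * X ω) := by positivity
    by_cases hA : S ≤ X ω
    · rw [Set.indicator_of_mem (by exact hA)]
      simp only [Pi.one_apply, mul_one]
      by_cases hB : X ω ≤ T
      · have : Real.exp (x * X ω) ≤ Real.exp (x * T) :=
          Real.exp_le_exp.2 (mul_le_mul_of_nonneg_left hB hx.le)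
        linarith
      · push Not at hB
        have : Real.exp (x * X ω) ≤ Real.exp (-(x * T)) * Real.exp (2 * x * X ω) := by
          rw [← Real.exp_add]
          apply Real.exp_le_exp.2
          nlinarith
        linarith
    · rw [Set.indicator_of_notMem (by exact hA)]
      push Not at hA
      have : Real.exp (x * X ω) ≤ Real.exp (x * S) :=
        Real.exp_le_exp.2 (mul_le_mul_of_nonneg_left hA.le hx.le)
      simp only [mul_zero, add_zero]
      linarith
  have hi1 : Integrable (fun ω => Real.exp (x * T) * ({ω | S ≤ X ω}.indicator (1 : Ω → ℝ) ω)) μ :=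
    ((integrable_const (1 : ℝ)).indicator hms).const_mul _
  have hi2 : Integrable (fun ω => Real.exp (-(x * T)) * Real.exp (2 * x * X ω)) μ :=
    (hX (2 * x)).const_mul _
  have h3 : ∫ ω, Real.exp (x * X ω) ∂μ ≤ Real.exp (x * S) + Real.exp (x * T) *
      μ.real {ω | S ≤ X ω} + Real.exp (-(x * T)) * ∫ ω, Real.exp (2 * x * X ω) ∂μ := by
    refine (integral_mono (hX x) (((integrable_const _).add hi1).add hi2) hpt).trans
      (le_of_eq ?_)
    rw [integral_add' ((integrable_const _).add hi1) hi2, integral_add' (integrable_const _) hi1,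
      integral_const_mul, integral_const_mul, integral_indicator_one hms]
    simp
  have h4 : Real.exp (-(x * T)) * ∫ ω, Real.exp (2 * x * X ω) ∂μ ≤ 1 := by
    calc _ ≤ Real.exp (-(x * T)) * Real.exp (x * T) :=
          mul_le_mul_of_nonneg_left h2 (Real.exp_pos _).le
      _ = 1 := by rw [← Real.exp_add]; simp
  have h5 : 1 ≤ Real.exp (x * T) * μ.real {ω | S ≤ X ω} := by nlinarith
  calc Real.exp (-(x * T)) = Real.exp (-(x * T)) * 1 := (mul_one _).symm
    _ ≤ Real.exp (-(x * T)) * (Real.exp (x * T) * μ.real {ω | S ≤ X ω}) :=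
        mul_le_mul_of_nonneg_left h5 (Real.exp_pos _).le
    _ = μ.real {ω | S ≤ X ω} := by
        rw [← mul_assoc, ← Real.exp_add]; simp

end Vale.Agent.P146.Ld
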