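import Vale.Agent.P146.Ld.LdRate
import Vale.Agent.P146.Ld.Cor0
import Vale.Agent.P146.Sx.Fin5
import Vale.Agent.P146.Ub.GueF
import Vale.Agent.P146.Ub.Gap2

/-!
# P146: the lower bound `log E exp (x (F_n - n p)) ≥ c n x⁶`, from the value with the first exponent
bounded below
-/

open MeasureTheory ProbabilityTheory Filter Topology

namespace Vale.Agent.P146.Ld

open Vale.Agent.P157.Par (Path Exponents)
open Vale.Agent.P146.Gap (SKpar SKr BPath gap2_SKr_eq)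
open Vale.Agent.P146.Sk (PSK)
open Vale.Agent.P146.Pw2 (gm)
open Vale.Agent.P146.Sx (vals pv)

/-- The value of the Parisi functional with the exponents at least `d / (n + 1)` exceeds the Parisi
value by at least a multiple of the fifth power. -/
def L1S (b : ℝ) : Prop := ∃ c C : ℝ, 0 < c ∧ 1 ≤ C ∧ ∀ n d : ℕ, 1 ≤ d → d ≤ n →
    gm n d ≤ c → C ≤ gm n d ^ 8 * (n + 1) → ∃ r', BPath b n r' ∧ ∀ q : ℕ → ℝ, Path n q →
      q n ≤ 1 → (∀ l < d, q l = 0) → SKr b n (gm n) r' + c * gm n d ^ 5 ≤ SKpar b n (gm n) q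

theorem cor_me (K : ℕ) : Ub.me K = gm K := by
  funext l
  unfold Ub.me gm
  push_cast
  rfl

theorem cor_bdd {β : ℝ} (hβ : 1 ≤ β) : BddBelow (vals β) := by
  obtain ⟨C₁, hC₁, h1⟩ := Sx.fin_moment5 hβ
  refine ⟨Real.log (∫ g, Real.exp (1 * freeEnergy 1 β g) ∂(disorder 1)) / (1 * ((1 : ℕ) : ℝ)) -
      Real.log 2 - C₁ * 1 ^ 5, ?_⟩
  rintro y ⟨K, m, q, hm, hq, hq1, rfl⟩
  exact h1 1 le_rfl 1 one_pos le_rfl K m q hm hq hq1

/-- the value at a path is at least the infimum -/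
theorem cor_sInf_le {β : ℝ} (hβ : 1 ≤ β) {n : ℕ} {r : ℕ → ℝ} (hr : BPath β n r) :
    sInf (vals β) ≤ SKr β n (gm n) r := by
  have hb : 0 < β := by linarith
  rw [← gap2_SKr_eq hb]
  refine csInf_le (cor_bdd hβ) ⟨n, gm n, fun l => r l / β ^ 2, Pw2.gm_exponents n, ⟨?_, ?_⟩, ?_, rfl⟩
  · have := hr.1
    simp only [this, zero_div, le_refl]
  · intro l hl
    have := hr.2.1.2 l hl
    simp only
    gcongr
  · simp only
    rw [div_le_one (by positivity)]
    exact hr.2.2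

/-- The bound at the points of the grid. -/
theorem cor_grid {β : ℝ} (hβ : 1 < β) (h : L1S β) : ∃ c C : ℝ, 0 < c ∧ 1 ≤ C ∧ ∀ K d : ℕ,
    1 ≤ d → d ≤ K → gm K d ≤ c → C ≤ gm K d ^ 8 * (K + 1) → ∀ n : ℕ, (K + 1) ^ 18 ≤ n →
      n * pv β + c * n * gm K d ^ 5 ≤
        1 / gm K d * Real.log (∫ g, Real.exp (gm K d * freeEnergy n β g) ∂(disorder n)) +
          C * (n / √((K : ℝ) + 1)) := by
  obtain ⟨c, C, hc, hC, h1⟩ := h
  obtain ⟨C', hC', h2⟩ := Ub.Ld.rate_lower_d (β := β) (by linarith)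
  refine ⟨c, max C C', hc, hC.trans (le_max_left _ _), ?_⟩
  intro K d hd1 hd hc1 hC1 n hn
  obtain ⟨r', hr', h3⟩ := h1 K d hd1 hd hc1 ((le_max_left _ _).trans hC1)
  have h4 := h2 K d (sInf (vals β) + c * gm K d ^ 5) hd1 hd (fun q hq hq1 hq0 => by
    rw [cor_me]
    have h5 := h3 q hq hq1 hq0
    have h6 := cor_sInf_le hβ.le hr'
    exact (add_le_add_left h6 _).trans h5) n hn
  rw [cor_me] at h4
  have h5 : n * pv β + c * n * gm K d ^ 5 =
      n * (Real.log 2 + (sInf (vals β) + c * gm K d ^ 5)) := by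
    unfold pv; ring
  rw [h5]
  refine h4.trans ?_
  have h6 : (0 : ℝ) ≤ n / √((K : ℝ) + 1) := by positivity
  have h7 : C' * (n / √((K : ℝ) + 1)) ≤ max C C' * (n / √((K : ℝ) + 1)) :=
    mul_le_mul_of_nonneg_right (le_max_right _ _) h6
  push_cast
  linarith

end Vale.Agent.P146.Ld
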