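import Vale.Agent.P146.Ld.Cor1

/-!
# P146: the lower bound of the exponential moments for real `x`, and of the upper tail
-/

open MeasureTheory ProbabilityTheory Filter Topology

namespace Vale.Agent.P146.Ld

open Vale.Agent.P157.Par (Path Exponents)
open Vale.Agent.P146.Gap (SKpar SKr BPath)
open Vale.Agent.P146.Sk (PSK)
open Vale.Agent.P146.Pw2 (gm)
open Vale.Agent.P146.Sx (vals pv)

/-- a point of the grid below `x` -/
theorem cor_pt {z x : ℝ} (hz : 2 ≤ z) (hx : 1 / z ^ 9 ≤ x) (hx2 : x ≤ 1 / 2) :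
    ∃ K d : ℕ, 1 ≤ d ∧ d ≤ K ∧ ((K : ℝ) + 1) ≤ z ^ 100 ∧ z ^ 100 / 2 ≤ (K : ℝ) + 1 ∧
      x / 2 ≤ gm K d ∧ gm K d ≤ x := by
  have hz0 : 0 < z := by linarith
  have hz1 : 1 ≤ z := by linarith
  have hx0 : 0 < x := lt_of_lt_of_le (by positivity) hx
  obtain ⟨k, hk⟩ : ∃ k : ℕ, k = ⌊z ^ 100⌋₊ := ⟨_, rfl⟩
  have hZ2 : 2 ≤ z ^ 100 := hz.trans (le_self_pow₀ hz1 (by norm_num))
  have hk1 : (k : ℝ) ≤ z ^ 100 := by rw [hk]; exact Nat.floor_le (by positivity)
  have hk2 : z ^ 100 / 2 ≤ k := by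
    have := Nat.lt_floor_add_one (z ^ 100)
    rw [← hk] at this
    linarith
  have hk0 : 1 ≤ k := by
    have : (0 : ℝ) < k := by linarith
    exact_mod_cast this
  have hxk : 1 ≤ x * k := by
    have h1 : 1 / z ^ 9 * (z ^ 100 / 2) ≤ x * k :=
      mul_le_mul hx hk2 (by positivity) hx0.le
    have h2 : 1 / z ^ 9 * (z ^ 100 / 2) = z ^ 91 / 2 := by field_simp
    have h3 : 2 ≤ z ^ 91 := hz.trans (le_self_pow₀ hz1 (by norm_num))
    rw [h2] at h1
    linarith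
  obtain ⟨d, hd⟩ : ∃ d : ℕ, d = ⌊x * k⌋₊ := ⟨_, rfl⟩
  have hd1 : (d : ℝ) ≤ x * k := by rw [hd]; exact Nat.floor_le (by positivity)
  have hd0 : 1 ≤ d := by rw [hd]; exact Nat.le_floor (by exact_mod_cast hxk)
  have hd2 : x * k / 2 ≤ d := by
    have h1 := Nat.lt_floor_add_one (x * k)
    rw [← hd] at h1
    have h2 : (1 : ℝ) ≤ d := by exact_mod_cast hd0
    linarith
  have hk0' : (0 : ℝ) < k := by exact_mod_cast hk0
  have hdk : d < k := by
    have : (d : ℝ) < k := by nlinarith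
    exact_mod_cast this
  have hK : ((k - 1 : ℕ) : ℝ) + 1 = k := by
    rw [Nat.cast_sub hk0]; simp
  refine ⟨k - 1, d, hd0, by omega, by rw [hK]; exact hk1, by rw [hK]; exact hk2, ?_, ?_⟩
  · unfold gm
    rw [hK, div_le_div_iff₀ (by norm_num) hk0']
    linarith
  · unfold gm
    rw [hK, div_le_iff₀ hk0']
    exact hd1

/-- **Lower bound of the exponential moments.** -/
theorem mom_low {β : ℝ} (hβ : 1 < β) (h : L1S β) : ∃ c x₀ : ℝ, 0 < c ∧ c ≤ 1 ∧ 0 < x₀ ∧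
    x₀ ≤ 1 / 2 ∧ ∃ N : ℕ, ∀ n ≥ N, ∀ x : ℝ, (n : ℝ) ^ (-(1 / 200) : ℝ) ≤ x → x ≤ x₀ →
      x * (n * pv β) + c * n * x ^ 6 ≤
        Real.log (∫ g, Real.exp (x * freeEnergy n β g) ∂(disorder n)) := by
  obtain ⟨c, C, hc, hC, hgrid⟩ := cor_grid hβ h
  obtain ⟨M, hM⟩ : ∃ M : ℝ, M = 2 + 512 * C + 128 * C / c := ⟨_, rfl⟩
  have hp : 0 < 128 * C / c := by positivity
  have ht : Tendsto (fun n : ℕ => (n : ℝ) ^ (1 / 1800 : ℝ)) atTop atTop :=
    (tendsto_rpow_atTop (by norm_num)).comp tendsto_natCast_atTop_atTop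
  obtain ⟨N, hN⟩ := eventually_atTop.1 ((ht.eventually_ge_atTop M).and (eventually_ge_atTop 1))
  refine ⟨min (c / 64) 1, min (1 / 2) c, lt_min (by positivity) one_pos, min_le_right _ _,
    lt_min (by norm_num) hc, min_le_left _ _, N, fun n hn x hx hxx => ?_⟩
  obtain ⟨hzM, hn1⟩ := hN n hn
  have hn0 : (0 : ℝ) < n := by exact_mod_cast (by omega : 0 < n)
  obtain ⟨z, hz⟩ : ∃ z : ℝ, z = (n : ℝ) ^ (1 / 1800 : ℝ) := ⟨_, rfl⟩
  rw [← hz] at hzM
  have hz2 : 2 ≤ z := by linarith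
  have hz1 : 1 ≤ z := by linarith
  have hz0 : 0 < z := by linarith
  have hzn : z ^ 1800 = n := by
    rw [hz, ← Real.rpow_natCast, ← Real.rpow_mul hn0.le]
    norm_num
  have hz9 : (n : ℝ) ^ (-(1 / 200) : ℝ) = 1 / z ^ 9 := by
    have e : (1 / 1800 : ℝ) * ((9 : ℕ) : ℝ) = 1 / 200 := by norm_num
    rw [Real.rpow_neg hn0.le, hz, ← Real.rpow_natCast, ← Real.rpow_mul hn0.le, e,
      ← one_div ((n : ℝ) ^ (1 / 200 : ℝ))]
  rw [hz9] at hx
  have hx2 : x ≤ 1 / 2 := hxx.trans (min_le_left _ _)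
  have hxc : x ≤ c := hxx.trans (min_le_right _ _)
  have hx0 : 0 < x := lt_of_lt_of_le (by positivity) hx
  obtain ⟨K, d, hd1, hdK, hK1, hK2, hy1, hy2⟩ := cor_pt hz2 hx hx2
  obtain ⟨y, hy⟩ : ∃ y : ℝ, y = gm K d := ⟨_, rfl⟩
  have hg := hgrid K d hd1 hdK
  rw [← hy] at hg hy1 hy2
  have hy0 : 0 < y := by linarith
  have hyz : 1 / (2 * z ^ 9) ≤ y := by
    have : 1 / (2 * z ^ 9) = (1 / z ^ 9) / 2 := by field_simp
    rw [this]
    linarith
  have hK0 : (0 : ℝ) < (K : ℝ) + 1 := by positivity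
  -- the conditions of the grid
  have hcond : C ≤ y ^ 8 * (K + 1) := by
    have h1 : (1 / (2 * z ^ 9)) ^ 8 * (z ^ 100 / 2) ≤ y ^ 8 * (K + 1) :=
      mul_le_mul (pow_le_pow_left₀ (by positivity) hyz 8) hK2 (by positivity) (by positivity)
    have h2 : (1 / (2 * z ^ 9)) ^ 8 * (z ^ 100 / 2) = z ^ 28 / 512 := by
      field_simp
      ring
    have h3 : z ≤ z ^ 28 := le_self_pow₀ hz1 (by norm_num)
    rw [h2] at h1
    linarith
  have hpow : (K + 1) ^ 18 ≤ n := by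
    have h1 : ((K : ℝ) + 1) ^ 18 ≤ (z ^ 100) ^ 18 := pow_le_pow_left₀ hK0.le hK1 18
    have h2 : (z ^ 100) ^ 18 = n := by rw [← hzn, ← pow_mul]
    rw [h2] at h1
    exact_mod_cast h1
  have h1 := hg (hy2.trans hxc) hcond n hpow
  -- the error
  have herr : C * (n / √((K : ℝ) + 1)) ≤ c / 2 * n * y ^ 5 := by
    have h2 : z ^ 50 / 2 ≤ √((K : ℝ) + 1) := by
      rw [Real.le_sqrt (by positivity) hK0.le]
      have h3 : (z ^ 50 / 2) ^ 2 = z ^ 100 / 4 := by ring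
      have h4 : 0 < z ^ 100 := by positivity
      rw [h3]
      linarith
    have h3 : n / √((K : ℝ) + 1) ≤ n / (z ^ 50 / 2) :=
      div_le_div_of_nonneg_left hn0.le (by positivity) h2
    have h4 : C * (n / (z ^ 50 / 2)) ≤ c / 2 * n * (1 / (2 * z ^ 9)) ^ 5 := by
      have h5 : c / 2 * n * (1 / (2 * z ^ 9)) ^ 5 = n / z ^ 50 * (c * z ^ 5 / 64) := by
        field_simp
        ring
      have h6 : C * (n / (z ^ 50 / 2)) = n / z ^ 50 * (2 * C) := by
        field_simp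
      rw [h5, h6]
      refine mul_le_mul_of_nonneg_left ?_ (by positivity)
      have h7 : z ≤ z ^ 5 := le_self_pow₀ hz1 (by norm_num)
      have h8 : 128 * C / c ≤ z ^ 5 := by linarith
      rw [div_le_iff₀ hc] at h8
      linarith
    have h5 : c / 2 * n * (1 / (2 * z ^ 9)) ^ 5 ≤ c / 2 * n * y ^ 5 :=
      mul_le_mul_of_nonneg_left (pow_le_pow_left₀ (by positivity) hyz 5) (by positivity)
    exact (mul_le_mul_of_nonneg_left h3 (by linarith)).trans (h4.trans h5)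
  have hmono := cor_mono (μ := disorder n) (X := freeEnergy n β)
    (fun x => Sx.integrable_exp n β x) hy0 hy2
  have h2 : n * pv β + c / 2 * n * y ^ 5 ≤
      1 / x * Real.log (∫ g, Real.exp (x * freeEnergy n β g) ∂(disorder n)) := by
    have : c * n * y ^ 5 = c / 2 * n * y ^ 5 + c / 2 * n * y ^ 5 := by ring
    linarith
  have h3 : c / 64 * n * x ^ 5 ≤ c / 2 * n * y ^ 5 := by
    have h4 : (x / 2) ^ 5 ≤ y ^ 5 := pow_le_pow_left₀ (by positivity) hy1 5
    have h5 : c / 64 * n * x ^ 5 = c / 2 * n * (x / 2) ^ 5 := by ring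
    rw [h5]
    exact mul_le_mul_of_nonneg_left h4 (by positivity)
  have h4 : min (c / 64) 1 * n * x ^ 5 ≤ c / 64 * n * x ^ 5 := by
    gcongr
    exact min_le_left _ _
  have h5 : n * pv β + min (c / 64) 1 * n * x ^ 5 ≤
      1 / x * Real.log (∫ g, Real.exp (x * freeEnergy n β g) ∂(disorder n)) := by linarith
  have h6 := mul_le_mul_of_nonneg_left h5 hx0.le
  have h7 : x * (1 / x * Real.log (∫ g, Real.exp (x * freeEnergy n β g) ∂(disorder n))) =
      Real.log (∫ g, Real.exp (x * freeEnergy n β g) ∂(disorder n)) := by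
    field_simp
  rw [h7] at h6
  refine le_trans (le_of_eq ?_) h6
  ring

/-- **Lower bound of the upper tail.** -/
theorem tail_low {β : ℝ} (hβ : 1 < β) (h : L1S β) : ∃ A s₀ : ℝ, 0 < A ∧ 0 < s₀ ∧ ∃ N : ℕ,
    ∀ n ≥ N, ∀ s : ℝ, (n : ℝ) ^ (-(1 / 40) : ℝ) ≤ s → s ≤ s₀ →
      Real.exp (-(A * n * s ^ (6 / 5 : ℝ))) ≤
        (disorder n).real {g | n * (pv β + s) ≤ freeEnergy n β g} := by
  obtain ⟨c, x₀, hc, hc1, hx₀, hx₀2, N₁, hlow⟩ := mom_low hβ h
  obtain ⟨C, hC, hup, -, -⟩ := Sx.moment hβ.le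
  have ht : Tendsto (fun n : ℕ => (n : ℝ) ^ (97 / 100 : ℝ)) atTop atTop :=
    (tendsto_rpow_atTop (by norm_num)).comp tendsto_natCast_atTop_atTop
  obtain ⟨N₂, hN₂⟩ := eventually_atTop.1
    ((ht.eventually_ge_atTop (2 / c)).and (eventually_ge_atTop 1))
  refine ⟨64 * C * (2 / c) ^ (6 / 5 : ℝ), c / 2 * x₀ ^ 5, by positivity, by positivity,
    max N₁ N₂, fun n hn s hs hss => ?_⟩
  obtain ⟨hn97, hn1⟩ := hN₂ n ((le_max_right _ _).trans hn)
  have hn0 : (0 : ℝ) < n := by exact_mod_cast (by omega : 0 < n)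
  have hs0 : 0 < s := lt_of_lt_of_le (by positivity) hs
  have h2s : 0 < 2 / c * s := by positivity
  obtain ⟨x, hx⟩ : ∃ x : ℝ, x = (2 / c * s) ^ (1 / 5 : ℝ) := ⟨_, rfl⟩
  have hx0 : 0 < x := by rw [hx]; positivity
  have hx5 : x ^ 5 = 2 / c * s := by
    rw [hx, ← Real.rpow_natCast, ← Real.rpow_mul h2s.le]
    norm_num
  have hx6 : x ^ 6 = (2 / c) ^ (6 / 5 : ℝ) * s ^ (6 / 5 : ℝ) := by
    rw [hx, ← Real.rpow_natCast, ← Real.rpow_mul h2s.le, ← Real.mul_rpow (by positivity) hs0.le]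
    norm_num
  have hsx : s = c / 2 * x ^ 5 := by rw [hx5]; field_simp
  have hxx₀ : x ≤ x₀ := by
    have h1 : x ^ 5 ≤ x₀ ^ 5 := by
      rw [hsx] at hss
      exact le_of_mul_le_mul_left hss (by positivity)
    exact le_of_pow_le_pow_left₀ (by norm_num) hx₀.le h1
  have hxn : (n : ℝ) ^ (-(1 / 200) : ℝ) ≤ x := by
    have h1 : (n : ℝ) ^ (-(1 / 40) : ℝ) = ((n : ℝ) ^ (-(1 / 200) : ℝ)) ^ 5 := by
      rw [← Real.rpow_natCast, ← Real.rpow_mul hn0.le]
      norm_num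
    have h2 : ((n : ℝ) ^ (-(1 / 200) : ℝ)) ^ 5 ≤ x ^ 5 := by
      rw [← h1, hx5]
      refine hs.trans ?_
      have h3 : 1 ≤ 2 / c := by rw [le_div_iff₀ hc]; linarith
      nlinarith
    exact le_of_pow_le_pow_left₀ (by norm_num) hx0.le h2
  have h1 := hlow n ((le_max_left _ _).trans hn) x hxn hxx₀
  have h2 := hup n hn1 (2 * x) (by linarith) (by linarith)
  have hpos : ∀ y : ℝ, 0 < ∫ g, Real.exp (y * freeEnergy n β g) ∂(disorder n) := fun y =>
    integral_exp_pos (Sx.integrable_exp n β y)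
  -- the centered variable
  have hcen : ∀ y : ℝ, ∫ g, Real.exp (y * (freeEnergy n β g - n * pv β)) ∂(disorder n) =
      Real.exp (-(y * (n * pv β))) * ∫ g, Real.exp (y * freeEnergy n β g) ∂(disorder n) := by
    intro y
    rw [← integral_const_mul]
    congr 1
    funext g
    rw [← Real.exp_add]
    congr 1
    ring
  have hint : ∀ y : ℝ, Integrable (fun g => Real.exp (y * (freeEnergy n β g - n * pv β)))
      (disorder n) := by
    intro y
    have : (fun g => Real.exp (y * (freeEnergy n β g - n * pv β))) =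
        fun g => Real.exp (-(y * (n * pv β))) * Real.exp (y * freeEnergy n β g) := by
      funext g
      rw [← Real.exp_add]
      congr 1
      ring
    rw [this]
    exact (Sx.integrable_exp n β y).const_mul _
  obtain ⟨u, hu⟩ : ∃ u : ℝ, u = Real.exp (c / 2 * n * x ^ 6) := ⟨_, rfl⟩
  have hnx : 1 ≤ c / 2 * n * x ^ 6 := by
    have h3 : ((n : ℝ) ^ (-(1 / 200) : ℝ)) ^ 6 ≤ x ^ 6 := pow_le_pow_left₀ (by positivity) hxn 6
    have h4 : (n : ℝ) * ((n : ℝ) ^ (-(1 / 200) : ℝ)) ^ 6 = (n : ℝ) ^ (97 / 100 : ℝ) := by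
      rw [← Real.rpow_natCast, ← Real.rpow_mul hn0.le]
      nth_rw 1 [← Real.rpow_one (n : ℝ)]
      rw [← Real.rpow_add hn0]
      norm_num
    have h5 : (n : ℝ) ^ (97 / 100 : ℝ) ≤ n * x ^ 6 := by
      rw [← h4]
      exact mul_le_mul_of_nonneg_left h3 hn0.le
    have h6 : 2 / c ≤ n * x ^ 6 := hn97.trans h5
    rw [div_le_iff₀ hc] at h6
    linarith
  have hu2 : 2 ≤ u := by
    rw [hu]
    have h3 := Real.add_one_le_exp (c / 2 * n * x ^ 6)
    linarith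
  have key := cor_tail (μ := disorder n) (X := fun g => freeEnergy n β g - n * pv β)
    ((Ub.measurable_free β).sub_const _) hint (x := x) (S := n * s) (T := 64 * C * n * x ^ 5)
    (u := u) hx0 hu2 ?_ ?_ ?_
  · have e1 : {g | n * s ≤ freeEnergy n β g - n * pv β} =
        {g | n * (pv β + s) ≤ freeEnergy n β g} := by
      ext g
      simp only [Set.mem_ofPred_eq]
      constructor <;> intro hg <;> linarith
    rw [e1] at key
    refine le_trans (Real.exp_le_exp.2 (le_of_eq ?_)) key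
    have e2 : x * (64 * C * n * x ^ 5) = 64 * C * n * x ^ 6 := by ring
    rw [e2, hx6]
    ring
  · rw [hcen, hu, ← Real.exp_nat_mul]
    have h3 : Real.exp (x * (n * pv β) + c * n * x ^ 6) ≤
        ∫ g, Real.exp (x * freeEnergy n β g) ∂(disorder n) := by
      rwa [← Real.le_log_iff_exp_le (hpos x)]
    refine le_trans (le_of_eq ?_) (mul_le_mul_of_nonneg_left h3 (Real.exp_pos _).le)
    rw [← Real.exp_add]
    congr 1
    push_cast
    ring
  · rw [hcen]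
    have h3 : ∫ g, Real.exp (2 * x * freeEnergy n β g) ∂(disorder n) ≤
        Real.exp (2 * x * (n * pv β) + C * n * (2 * x) ^ 6) := by
      rwa [← Real.log_le_iff_le_exp (hpos _)]
    refine (mul_le_mul_of_nonneg_left h3 (Real.exp_pos _).le).trans (le_of_eq ?_)
    rw [← Real.exp_add]
    congr 1
    ring
  · rw [hu]
    apply Real.exp_le_exp.2
    rw [hsx]
    apply le_of_eq
    ring

end Vale.Agent.P146.Ld
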