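import Vale.Agent.P146.Ld.Cor2

/-!
# P146: the two-sided bounds of the upper tail, from the value with the first exponent bounded below
-/

open MeasureTheory ProbabilityTheory Filter Topology

namespace Vale.Agent.P146.Ld

open Vale.Agent.P146.Sx (pv)

/-- The exponential moments and the upper tail of the free energy, with the exact exponents. -/
theorem two_sided {β : ℝ} (hβ : 1 < β) (h : L1S β) : ∃ C a A c x₀ : ℝ, 0 < a ∧ 0 < A ∧ 0 < c ∧
    0 < x₀ ∧ x₀ ≤ 1 ∧
    Tendsto (fun n : ℕ => (∫ g, freeEnergy n β g ∂(disorder n)) / n) atTop (𝓝 (pv β)) ∧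
    (∀ n : ℕ, 1 ≤ n →
      (∀ x : ℝ, 0 < x → x ≤ 1 →
        ∫ g, Real.exp (x * (freeEnergy n β g - n * pv β)) ∂(disorder n) ≤
          Real.exp (C * n * x ^ 6)) ∧
      (∀ t : ℝ, 0 ≤ t →
        (disorder n).real {g | n * pv β + t * (n : ℝ) ^ (1 / 6 : ℝ) ≤ freeEnergy n β g} ≤
          C * Real.exp (-t)) ∧
      (∀ s : ℝ, 0 ≤ s → s ≤ 1 →
        (disorder n).real {g | n * (pv β + s) ≤ freeEnergy n β g} ≤
          Real.exp (-(a * n * s ^ (6 / 5 : ℝ)))) ∧
      n * pv β - C * (n : ℝ) ^ (35 / 36 : ℝ) ≤ ∫ g, freeEnergy n β g ∂(disorder n) ∧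
      ∫ g, freeEnergy n β g ∂(disorder n) ≤ n * pv β ∧
      Var[freeEnergy n β; disorder n] ≤ C * (n : ℝ) ^ (44 / 45 : ℝ) * (1 + Real.log n)) ∧
    ∀ᶠ n : ℕ in atTop,
      (∀ x : ℝ, (n : ℝ) ^ (-(1 / 200) : ℝ) ≤ x → x ≤ x₀ → Real.exp (c * n * x ^ 6) ≤
        ∫ g, Real.exp (x * (freeEnergy n β g - n * pv β)) ∂(disorder n)) ∧
      (∀ s : ℝ, (n : ℝ) ^ (-(1 / 40) : ℝ) ≤ s → s ≤ x₀ →
        Real.exp (-(A * n * s ^ (6 / 5 : ℝ))) ≤
          (disorder n).real {g | n * (pv β + s) ≤ freeEnergy n β g}) := by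
  obtain ⟨C₁, hC₁, hmom, hup, hlow⟩ := Sx.moment hβ.le
  obtain ⟨a, ha, hdev⟩ := Sx.tail_dev hC₁
  obtain ⟨C₂, hvar⟩ := Sx.var_upper5 hβ.le
  obtain ⟨c, x₀, hc, hc1, hx₀, hx₀2, N₁, hl⟩ := mom_low hβ h
  obtain ⟨A, s₀, hA, hs₀, N₂, ht⟩ := tail_low hβ h
  have hexp : (1 : ℝ) ≤ Real.exp C₁ := Real.one_le_exp (by linarith)
  have hC₁e : C₁ ≤ Real.exp C₁ := by
    have := Real.add_one_le_exp C₁
    linarith
  have hcen : ∀ (n : ℕ) (x : ℝ), ∫ g, Real.exp (x * (freeEnergy n β g - n * pv β)) ∂(disorder n) =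
      Real.exp (-(x * (n * pv β))) * ∫ g, Real.exp (x * freeEnergy n β g) ∂(disorder n) := by
    intro n x
    rw [← integral_const_mul]
    congr 1
    funext g
    rw [← Real.exp_add]
    congr 1
    ring
  refine ⟨max (Real.exp C₁) C₂, a, A, c, min x₀ s₀, ha, hA, hc, lt_min hx₀ hs₀,
    (min_le_left _ _).trans (by linarith), Sx.tendsto_of hup hlow, fun n hn => ?_, ?_⟩
  · have hn1 : (1 : ℝ) ≤ n := by exact_mod_cast hn
    have hn0 : (0 : ℝ) < n := by linarith
    refine ⟨fun x hx hx1 => ?_, fun t _ => ?_, fun s hs hs1 => ?_, ?_, hup n hn, ?_⟩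
    · have h1 := hmom n hn x hx hx1
      have hpos : 0 < ∫ g, Real.exp (x * freeEnergy n β g) ∂(disorder n) :=
        mgf_pos (μ := disorder n) (X := freeEnergy n β) (Sx.integrable_exp n β x)
      rw [Real.log_le_iff_le_exp hpos] at h1
      rw [hcen]
      calc _ ≤ Real.exp (-(x * (n * pv β))) *
            Real.exp (x * (n * pv β) + C₁ * n * x ^ 6) :=
            mul_le_mul_of_nonneg_left h1 (Real.exp_pos _).le
        _ = Real.exp (C₁ * n * x ^ 6) := by rw [← Real.exp_add]; congr 1; ring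
        _ ≤ _ := Real.exp_le_exp.2 (by
            gcongr
            exact hC₁e.trans (le_max_left _ _))
    · refine (Sx.tail_one hn (hmom n hn)).trans ?_
      rw [sub_eq_add_neg, Real.exp_add]
      exact mul_le_mul_of_nonneg_right (le_max_left _ _) (Real.exp_pos _).le
    · exact hdev n β _ s hn (hmom n hn) hs hs1
    · have h1 := hlow n hn
      have h2 : C₁ * (n : ℝ) ^ (35 / 36 : ℝ) ≤ max (Real.exp C₁) C₂ * (n : ℝ) ^ (35 / 36 : ℝ) :=
        mul_le_mul_of_nonneg_right (hC₁e.trans (le_max_left _ _)) (by positivity)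
      linarith
    · refine (hvar n hn).trans ?_
      have h1 : 0 ≤ Real.log n := Real.log_nonneg hn1
      have h2 : 0 ≤ (n : ℝ) ^ (44 / 45 : ℝ) := by positivity
      gcongr
      exact le_max_right _ _
  · filter_upwards [eventually_ge_atTop (max N₁ N₂)] with n hn
    refine ⟨fun x hx hxx => ?_, fun s hs hss => ht n ((le_max_right _ _).trans hn) s hs
      (hss.trans (min_le_right _ _))⟩
    have h1 := hl n ((le_max_left _ _).trans hn) x hx (hxx.trans (min_le_left _ _))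
    have hpos : 0 < ∫ g, Real.exp (x * freeEnergy n β g) ∂(disorder n) :=
      mgf_pos (μ := disorder n) (X := freeEnergy n β) (Sx.integrable_exp n β x)
    rw [Real.le_log_iff_exp_le hpos] at h1
    rw [hcen]
    refine le_trans (le_of_eq ?_) (mul_le_mul_of_nonneg_left h1 (Real.exp_pos _).le)
    rw [← Real.exp_add]
    congr 1
    ring

end Vale.Agent.P146.Ld
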