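import Vale.Agent.P146.Ld.LdDefs

/-!
(L2): covariances with the disorder at the level `d`.
-/

open MeasureTheory ProbabilityTheory Filter Topology

namespace Vale.Agent.P146.Ub.Ld

open Vale.Agent.P157 Vale.Agent.P157.Lv Vale.Agent.P157.Lv.Sy
open Vale.Agent.P157.Par (Path Exponents incr)
open Vale.Agent.P146 (Pair)

variable {n K N d : ℕ} {m s R : ℕ → ℝ} {β θ : ℝ}

theorem cv_lt {l : ℕ} (hl : l < d) {a b : (Fin n → Bool) → RI n K → ℝ}
    (ha : ∀ x e, a x (Sum.inr e) = 0) (x x' : Fin n → Bool) :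
    cv (rlv d) l a b x x' = 0 := by
  unfold cv
  refine Finset.sum_eq_zero fun e _ => ?_
  rcases e with p | e
  · rw [if_neg (show ¬ rlv d (Sum.inl p : RI n K) ≤ l from not_le.2 hl)]
  · rw [ha, zero_mul, ite_self]

theorem cv_ge {l : ℕ} (hl : d ≤ l) {a b : (Fin n → Bool) → RI n K → ℝ}
    (ha : ∀ x e, a x (Sum.inr e) = 0) (x x' : Fin n → Bool) :
    cv (rlv d) l a b x x' = cv rlev l a b x x' := by
  unfold cv
  refine Finset.sum_congr rfl fun e _ => ?_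
  rcases e with p | e
  · rw [if_pos (show rlv d (Sum.inl p : RI n K) ≤ l from hl),
      if_pos (show rlev (Sum.inl p : RI n K) ≤ l from Nat.zero_le _)]
  · rw [ha, zero_mul, ite_self, ite_self]

theorem cv_dsk_lt {l : ℕ} (hl : l < d) (γ γ' : ℝ) (x x' : Fin n → Bool) :
    cv (rlv d) l (dsk (K := K) N γ) (dsk N γ') x x' = 0 :=
  cv_lt hl (fun x e => dsk_b N γ x e) x x'

theorem cv_dsk_ge (hN : N ≤ n) {l : ℕ} (hl : d ≤ l) (γ γ' : ℝ) (x x' : Fin n → Bool) :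
    cv (rlv d) l (dsk (K := K) N γ) (dsk N γ') x x' =
      γ * γ' * ((N * Rov (ph hN) x x') ^ 2 - N) / 2 := by
  rw [cv_ge hl (fun x e => dsk_b N γ x e), cv_dsk hN]

theorem cv_cav_lt {l : ℕ} (hl : l < d) (γ : ℝ) (x x' : Fin n → Bool) :
    cv (rlv d) l (cav (K := K) N γ) (cav N γ) x x' = 0 :=
  cv_lt hl (fun x e => cav_b N γ x e) x x'

theorem cv_cav_ge (hN : N < n) {l : ℕ} (hl : d ≤ l) (γ : ℝ) (x x' : Fin n → Bool) :
    cv (rlv d) l (cav (K := K) N γ) (cav N γ) x x' =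
      γ ^ 2 * (sp N x * sp N x') * (N * Rov (ph hN.le) x x') := by
  rw [cv_ge hl (fun x e => cav_b N γ x e), cv_cav hN]

theorem cv_tre' (hN : N < n) {l : ℕ} (hl : l ≤ K) (γ : ℝ) (hR : Path K R) (x x' : Fin n → Bool) :
    cv (rlv d) l (tre (K := K) N γ R) (tre N γ R) x x' = γ ^ 2 * (sp N x * sp N x') * R l := by
  rw [← cv_tre hN hl γ hR x x']
  unfold cv
  refine Finset.sum_congr rfl fun e _ => ?_
  rcases e with p | p | i
  · rw [tre_a, zero_mul, ite_self, ite_self]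
  · rfl
  · rfl

end Vale.Agent.P146.Ub.Ld
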