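import Vale.Agent.P146.Ub.RRate

/-!
(L2): the SK systems with tree fields, with the disorder at the level `d` (`1 ≤ d ≤ K`): the
exponential moments of the free energy. The definitions of the coefficients are those of `Ub`.
-/

open MeasureTheory ProbabilityTheory Filter Topology

namespace Vale.Agent.P146.Ub.Ld

open Vale.Agent.P157 Vale.Agent.P157.Lv Vale.Agent.P157.Lv.Sy
open Vale.Agent.P157.Par (Path Exponents incr)
open Vale.Agent.P146 (Pair)

variable {n K : ℕ}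

/-- The levels: the disorder has the level `d`. -/
def rlv (d : ℕ) : RI n K → ℕ
  | Sum.inl _ => d
  | Sum.inr (Sum.inl p) => p.1
  | Sum.inr (Sum.inr l) => l

theorem rlv_le {d : ℕ} (hd : d ≤ K) (e : RI n K) : rlv d e ≤ K := by
  rcases e with p | p | l
  · exact hd
  · exact Nat.le_of_lt_succ p.1.2
  · exact Nat.le_of_lt_succ l.2

theorem rlv_zero {d : ℕ} (hd : 1 ≤ d) (e : RI n K) (h : rlv d e = 0) : rlev e = 0 := by
  rcases e with p | p | l
  · rfl
  · exact h
  · exact h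

/-- The systems. -/
noncomputable def SN (n : ℕ) (K d : ℕ) (m : ℕ → ℝ) (β : ℝ) (N : ℕ) (s : ℕ → ℝ) :
    Sy (RI n K) (Fin n → Bool) := ls (rlv d) K m (lc n) (st β N s)

noncomputable def SC (n : ℕ) (K d : ℕ) (m : ℕ → ℝ) (β : ℝ) (N : ℕ) (s : ℕ → ℝ) :
    Sy (RI n K) (Fin n → Bool) := ls (rlv d) K m (lc n) (sc β N s)

/-- The interpolating systems: tree field at `θ = π / 2`, cavity field at `θ = 0`. -/
noncomputable def ST (n : ℕ) (K d : ℕ) (m : ℕ → ℝ) (β : ℝ) (N : ℕ) (s R : ℕ → ℝ) (θ : ℝ) :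
    Sy (RI n K) (Fin n → Bool) := ls (rlv d) K m (lc n) (tc β N s R θ)

/-- The free energy of the stage `N`. -/
noncomputable def AN (n : ℕ) (K d : ℕ) (m : ℕ → ℝ) (β : ℝ) (N : ℕ) (s : ℕ → ℝ) : ℝ :=
  (SN n K d m β N s).fe

/-- The second differences of the free energy in the strength `j`. -/
noncomputable def dl (n : ℕ) (K d : ℕ) (m : ℕ → ℝ) (β : ℝ) (N : ℕ) (s : ℕ → ℝ) (t : ℝ)
    (j : ℕ) : ℝ :=
  AN n K d m β N (Function.update s j (s j + t)) + AN n K d m β N (Function.update s j (s j - t)) -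
    2 * AN n K d m β N s

/-- The error of the concentration of the field `j`. -/
noncomputable def ej (n : ℕ) (K d : ℕ) (m : ℕ → ℝ) (β : ℝ) (N : ℕ) (s : ℕ → ℝ) (t : ℝ)
    (j : ℕ) : ℝ :=
  1 / (N * t) * (2 * dl n K d m β N s t j + 3 * β ^ 2 + Real.log 2 / m 1 +
    3 * √(2 * ((2 * β ^ 2 + 4) * N)))

/-- The sum of the errors. -/
noncomputable def ee (n : ℕ) (K d : ℕ) (m : ℕ → ℝ) (β : ℝ) (N : ℕ) (s : ℕ → ℝ) (t : ℝ) : ℝ :=
  ∑ j ∈ Finset.range (K + 1), ej n K d m β N s t j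

/-- The path cut below the level `d`. -/
noncomputable def ct (d : ℕ) (R : ℕ → ℝ) : ℕ → ℝ := fun l => if l < d then 0 else R l

theorem ct_lt {d l : ℕ} (h : l < d) (R : ℕ → ℝ) : ct d R l = 0 := if_pos h

theorem ct_ge {d l : ℕ} (h : d ≤ l) (R : ℕ → ℝ) : ct d R l = R l := if_neg (not_lt.2 h)

theorem ct_path {d : ℕ} {R : ℕ → ℝ} (hR : Path K R) : Path K (ct d R) := by
  have h0 : ∀ l ≤ K, 0 ≤ R l := by
    intro l hl
    induction l with
    | zero => exact hR.1
    | succ l ih => exact (ih (by omega)).trans (hR.2 l (by omega))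
  refine ⟨?_, fun l hl => ?_⟩
  · unfold ct
    split_ifs
    · exact le_rfl
    · exact hR.1
  · unfold ct
    split_ifs with h1 h2 h2
    · exact le_rfl
    · exact h0 _ (by omega)
    · omega
    · exact hR.2 l hl

end Vale.Agent.P146.Ub.Ld
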