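import Vale.Agent.P146.Ld.LdField

/-!
(L2): dropping the field of the new spin, the factorization of the tree field, and the free energy
without fields (an exponential moment).
-/

open MeasureTheory ProbabilityTheory Filter Topology

namespace Vale.Agent.P146.Ub.Ld

set_option linter.unusedSectionVars false

open Vale.Agent.P157 Vale.Agent.P157.Lv Vale.Agent.P157.Lv.Sy
open Vale.Agent.P157.Par (Path Exponents incr spinPart)
open Vale.Agent.P146 (Pair freeEnergy disorder)

variable {n K N d : ℕ} {m s R : ℕ → ℝ} {β : ℝ}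

/-- (G1) The field of the new spin can be dropped (`ls_le_add`). -/
theorem AN_succ_ge (hd : d ≤ K) (hN : N + 1 ≤ n) (hm : Exponents K m) (β : ℝ) (s : ℕ → ℝ) :
    (ls (rlv d) K m (lc n) (sc β N s + cav N (β / √((N + 1 : ℕ) : ℝ))) :
      Sy (RI n K) (Fin n → Bool)).fe ≤ AN n K d m β (N + 1) s := by
  unfold AN SN
  rw [st_succ hN]
  refine ls_le_add hm (rlv_le hd) (lc n) ?_
  intro e x x'
  rcases e with p | p | l
  · simp only [nfd_a, zero_mul]
  · simp only [nfd_b, sc, dsk_b, fd_b, cav_b, Pi.add_apply]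
    by_cases h : (p.2 : ℕ) = N
    · rw [if_pos h, if_neg (by omega)]
      ring
    · rw [if_neg h, zero_mul]
  · simp only [nfd_c, zero_mul]

/-- (G2) The tree field. -/
theorem fe_tre (hd : d ≤ K) (hN : N < n) (hm : Exponents K m) (hβ : 0 ≤ β) (hR : Path K R)
    (s : ℕ → ℝ) :
    (ls (rlv d) K m (lc n) (sc β N s + tre N β R) : Sy (RI n K) (Fin n → Bool)).fe =
      (SC n K d m β N s).fe + (spinPart K m (fun l => β ^ 2 * R l) + β ^ 2 * R K / 2) := by
  have hS := ls_regD (X := Fin n → Bool) hm (rlv_le (n := n) hd) (lc n) (sc β N s)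
  have hR' : Path K (fun l => β ^ 2 * R l) :=
    ⟨mul_nonneg (sq_nonneg β) hR.1, fun l hl => mul_le_mul_of_nonneg_left (hR.2 l hl) (sq_nonneg β)⟩
  have hy : ∀ l ≤ K, (rlv d (yt n K l) : ℕ) = l := by
    intro l hl
    show ((Fin.ofNat (K + 1) l : Fin (K + 1)) : ℕ) = l
    exact Nat.mod_eq_of_lt (by omega)
  have hD : ∀ l ≤ K, ∀ (z : RI n K → ℝ) (x : Fin n → Bool), sc β N s x (yt n K l) = 0 := by
    intro l _ z x
    simp only [yt, sc, dsk_b, fd_c, Pi.add_apply, add_zero]
  have hH : ∀ z x, (ls (rlv d) K m (lc n) (sc β N s) : Sy (RI n K) (Fin n → Bool)).H z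
      (rflip hN x) = (ls (rlv d) K m (lc n) (sc β N s) : Sy (RI n K) (Fin n → Bool)).H z x := by
    intro z x
    show lin (sc β N s (rflip hN x)) z + lc n = lin (sc β N s x) z + lc n
    rw [sc_flip]
  have key := fe_spin_tree hS (rflip hN) (sp N) (sp_pm hN) (sp_flip hN) hH (y := yt n K) hy hD hR'
  have e : (ls (rlv d) K m (lc n) (sc β N s + tre N β R) : Sy (RI n K) (Fin n → Bool)) =
      (ls (rlv d) K m (lc n) (sc β N s) : Sy (RI n K) (Fin n → Bool)).wH (fun z x =>
        (ls (rlv d) K m (lc n) (sc β N s) : Sy (RI n K) (Fin n → Bool)).H z x +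
          sp N x * tf (yt n K) K (fun l => β ^ 2 * R l) z) := by
    have e1 : (fun (z : RI n K → ℝ) (x : Fin n → Bool) =>
        lin ((sc β N s + tre N β R : (Fin n → Bool) → RI n K → ℝ) x) z + lc n) =
        fun z x => lin (sc β N s x) z + lc n +
          sp N x * tf (yt n K) K (fun l => β ^ 2 * R l) z := by
      funext z x
      rw [Pi.add_apply, rf_lin_add, rf_lin_tre hβ]
      ring
    show (⟨rlv d, K, m, fun (z : RI n K → ℝ) (x : Fin n → Bool) =>
      lin ((sc β N s + tre N β R : (Fin n → Bool) → RI n K → ℝ) x) z + lc n⟩ :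
        Sy (RI n K) (Fin n → Bool)) = _
    rw [e1]
    rfl
  rw [e]
  exact key

/-- (K) Without fields: the exponential moment of the free energy. -/
theorem AN_zero (hd1 : 1 ≤ d) (hd : d ≤ K) (hn : 0 < n) (hm : Exponents K m) (β : ℝ) :
    AN n K d m β n (fun _ => 0) =
      1 / m d * Real.log (∫ g, Real.exp (m d * freeEnergy n β g) ∂(disorder n)) -
        n * Real.log 2 := by
  obtain ⟨e, rfl⟩ : ∃ e, d = e + 1 := ⟨d - 1, by omega⟩
  have hS := ls_regD (X := Fin n → Bool) hm (rlv_le (n := n) hd) (lc n)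
    (st β n (fun _ => 0))
  have hst : ∀ (x : Fin n → Bool) (z : RI n K → ℝ), lin (st β n (fun _ => 0) x) z =
      ∑ p : Pair n, β / √n * (spin x p.1.1 * spin x p.1.2) * z (Sum.inl p) := by
    intro x z
    rw [rf_lin]
    have e1 : ∑ p : Fin (K + 1) × Fin n, st β n (fun _ => 0) x (Sum.inr (Sum.inl p)) *
        z (Sum.inr (Sum.inl p)) = 0 :=
      Finset.sum_eq_zero fun p _ => by
        simp only [st, dsk_b, fd_b, Pi.add_apply, zero_mul, ite_self, add_zero]
    have e2 : ∑ l : Fin (K + 1), st β n (fun _ => 0) x (Sum.inr (Sum.inr l)) *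
        z (Sum.inr (Sum.inr l)) = 0 :=
      Finset.sum_eq_zero fun p _ => by
        simp only [st, dsk_b, fd_c, Pi.add_apply, zero_mul, add_zero]
    rw [e1, e2, add_zero, add_zero]
    refine Finset.sum_congr rfl fun p _ => ?_
    simp only [st, dsk_a, fd_a, Pi.add_apply, add_zero]
    rw [if_pos p.1.2.2]
  have htop : ∀ z : RI n K → ℝ, (SN n K (e + 1) m β n (fun _ => 0)).top z =
      freeEnergy n β (fun p => z (Sum.inl p)) - n * Real.log 2 := by
    intro z
    show Real.log (∑ x : Fin n → Bool, Real.exp (lin (st β n (fun _ => 0) x) z + lc n)) = _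
    have e1 : ∀ x : Fin n → Bool, Real.exp (lin (st β n (fun _ => 0) x) z + lc n) =
        Real.exp (lin (st β n (fun _ => 0) x) z) * Real.exp (lc n) := fun x => Real.exp_add _ _
    simp only [e1]
    rw [← Finset.sum_mul, Real.log_mul (Finset.sum_pos (fun x _ => Real.exp_pos _)
      Finset.univ_nonempty).ne' (Real.exp_pos _).ne', Real.log_exp]
    have e2 : ∑ x : Fin n → Bool, Real.exp (lin (st β n (fun _ => 0) x) z) =
        partitionFn n β (fun p => z (Sum.inl p)) := by
      unfold partitionFn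
      rw [← Equiv.sum_comp (Equiv.arrowCongr (Equiv.refl (Fin n)) bu)]
      refine Finset.sum_congr rfl fun x _ => ?_
      congr 1
      rw [hst]
      unfold hamiltonian
      rw [← mul_assoc, Finset.mul_sum]
      refine Finset.sum_congr rfl fun p _ => ?_
      have e3 : ∀ i : Fin n, (((Equiv.arrowCongr (Equiv.refl (Fin n)) bu x i : ℤˣ) : ℤ) : ℝ) =
          spin x i := by
        intro i
        have e4 : Equiv.arrowCongr (Equiv.refl (Fin n)) bu x i = bu (x i) := rfl
        rw [e4, bu_cast]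
        rfl
      rw [e3, e3]
      ring
    rw [e2]
    unfold freeEnergy lc
    ring
  have hdep : ∀ x : Fin n → Bool, Dep (SN n K (e + 1) m β n (fun _ => 0)).lev (e + 1)
      fun z => (SN n K (e + 1) m β n (fun _ => 0)).H z x := by
    intro x z w
    show lin (st β n (fun _ => 0) x) (mix (rlv (e + 1)) (e + 1) z w) + lc n =
      lin (st β n (fun _ => 0) x) z + lc n
    rw [hst, hst]
    congr 1
    refine Finset.sum_congr rfl fun p _ => ?_
    congr 1
    exact if_pos (le_refl (e + 1))
  have hdep' : ∀ z w x, (SN n K (e + 1) m β n (fun _ => 0)).H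
      (mix (SN n K (e + 1) m β n (fun _ => 0)).lev e z w) x =
      (SN n K (e + 1) m β n (fun _ => 0)).H w x := by
    intro z w x
    show lin (st β n (fun _ => 0) x) (mix (rlv (e + 1)) e z w) + lc n =
      lin (st β n (fun _ => 0) x) w + lc n
    rw [hst, hst]
    congr 1
    refine Finset.sum_congr rfl fun p _ => ?_
    congr 1
    exact if_neg (show ¬ (e + 1 ≤ e) by omega)
  have h1 : AN n K (e + 1) m β n (fun _ => 0) = 1 / m (e + 1) * Real.log
      (∫ z, Real.exp (m (e + 1) * (SN n K (e + 1) m β n (fun _ => 0)).top z) ∂(gI (RI n K))) :=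
    fe_level hS.toReg hd hdep hdep'
  have hm0 : 0 < m (e + 1) := hS.toReg.m_pos (by omega) (by show e + 1 ≤ K + 1; omega)
  have hEG : EG fun z : RI n K → ℝ =>
      Real.exp (m (e + 1) * (SN n K (e + 1) m β n (fun _ => 0)).top z) :=
    hS.toReg.lip_top.exp_eg _
  have hpos : 0 < ∫ z : RI n K → ℝ,
      Real.exp (m (e + 1) * (SN n K (e + 1) m β n (fun _ => 0)).top z) ∂(gI (RI n K)) := by
    rw [integral_pos_iff_support_of_nonneg (fun w => (Real.exp_pos _).le) hEG.integrable]
    have h3 : (Function.support fun z : RI n K → ℝ =>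
        Real.exp (m (e + 1) * (SN n K (e + 1) m β n (fun _ => 0)).top z)) = Set.univ :=
      Set.eq_univ_of_forall fun w => (Real.exp_pos _).ne'
    rw [h3, measure_univ]
    exact one_pos
  rw [h1]
  simp only [htop] at hpos ⊢
  have hL := (freeEnergy_dom n β)
  have h2 : ∫ z : RI n K → ℝ, Real.exp (m (e + 1) * (freeEnergy n β (fun p => z (Sum.inl p)) -
      n * Real.log 2)) ∂(gI (RI n K)) = Real.exp (-(m (e + 1) * (n * Real.log 2))) *
      ∫ g, Real.exp (m (e + 1) * freeEnergy n β g) ∂(disorder n) := by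
    have h3 : ∀ z : RI n K → ℝ, Real.exp (m (e + 1) * (freeEnergy n β (fun p => z (Sum.inl p)) -
      n * Real.log 2)) = Real.exp (-(m (e + 1) * (n * Real.log 2))) *
        Real.exp (m (e + 1) * freeEnergy n β (fun p => z (Sum.inl p))) := by
      intro z
      rw [← Real.exp_add]
      congr 1
      ring
    simp only [h3]
    rw [integral_const_mul]
    congr 1
    exact rf_marginal (fun g => Real.exp (m (e + 1) * freeEnergy n β g))
      (Real.continuous_exp.comp (hL.cont.const_mul _)).aestronglyMeasurable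
  rw [h2] at hpos ⊢
  have hpos' : 0 < ∫ g, Real.exp (m (e + 1) * freeEnergy n β g) ∂(disorder n) :=
    pos_of_mul_pos_right hpos (Real.exp_pos _).le
  rw [Real.log_mul (Real.exp_pos _).ne' hpos'.ne', Real.log_exp]
  field_simp
  ring

end Vale.Agent.P146.Ub.Ld
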