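import Vale.Agent.P146.Ld.LdReg

/-!
(L2): if the energy depends only on the coordinates of the level `d`, the free energy is an
exponential moment; the free energy without fields; the tree field.
-/

open MeasureTheory ProbabilityTheory Filter Topology

namespace Vale.Agent.P146.Ub.Ld

set_option linter.unusedSectionVars false

open Vale.Agent.P157 Vale.Agent.P157.Lv Vale.Agent.P157.Lv.Sy
open Vale.Agent.P157.Par (Path Exponents incr spinPart)
open Vale.Agent.P146 (Pair freeEnergy disorder)

section Gen

variable {ι X : Type} [Fintype ι] [Fintype X] [Nonempty X] {S : Sy ι X}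

/-- If the energy depends only on the coordinates of the level `d + 1`. -/
theorem fe_level (hS : S.Reg) {d : ℕ} (hd : d + 1 ≤ S.K)
    (h : ∀ x, Dep S.lev (d + 1) fun z => S.H z x)
    (h' : ∀ z w x, S.H (mix S.lev d z w) x = S.H w x) :
    S.fe = 1 / S.m (d + 1) * Real.log (∫ z, Real.exp (S.m (d + 1) * S.top z) ∂(gI ι)) := by
  have key : ∀ k, ∀ l, d + 1 ≤ l → l + k = S.K → S.lg l = S.top := by
    intro k
    induction k with
    | zero =>
      intro l _ hl
      have : l = S.K := by omega
      subst this
      exact Sy.lg_top S
    | succ k ih =>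
      intro l hl hk
      have ih' := ih (l + 1) (by omega) (by omega)
      rw [Sy.lg_step S (show l < S.K by omega), ih']
      funext z
      have hdd : Dep S.lev l (fun z => Real.exp (S.m (l + 1) * S.top z)) := by
        intro z w
        simp only
        congr 2
        unfold Sy.top
        congr 1
        refine Finset.sum_congr rfl fun x _ => ?_
        exact congrArg Real.exp ((h x).mono hl z w)
      have hm : S.m (l + 1) ≠ 0 := (hS.m_pos (by omega) (by omega)).ne'
      unfold Sy.stp
      rw [hdd.J_eq, Real.log_exp]
      field_simp
  have h1 : S.lg (d + 1) = S.top := key (S.K - (d + 1)) (d + 1) le_rfl (by omega)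
  obtain ⟨c, hc⟩ : ∃ c, c = 1 / S.m (d + 1) *
    Real.log (∫ z, Real.exp (S.m (d + 1) * S.top z) ∂(gI ι)) := ⟨_, rfl⟩
  have h2 : S.lg d = fun _ => c := by
    rw [Sy.lg_step S (show d < S.K by omega), h1]
    funext z
    unfold Sy.stp J
    rw [hc]
    congr 2
    refine integral_congr_ae (Filter.Eventually.of_forall fun w => ?_)
    simp only
    congr 2
    unfold Sy.top
    congr 1
    exact Finset.sum_congr rfl fun x _ => congrArg Real.exp (h' z w x)
  have h3 : ∀ k, ∀ l, l + k = d → S.lg l = fun _ => c := by
    intro k
    induction k with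
    | zero =>
      intro l hl
      have : l = d := by omega
      subst this
      exact h2
    | succ k ih =>
      intro l hl
      rw [Sy.lg_step S (show l < S.K by omega), ih (l + 1) (by omega)]
      funext z
      have hm : S.m (l + 1) ≠ 0 := (hS.m_pos (by omega) (by omega)).ne'
      unfold Sy.stp
      rw [J_const, Real.log_exp]
      field_simp
  rw [← hc]
  unfold Sy.fe
  rw [h3 d 0 (by omega)]
  simp

end Gen

end Vale.Agent.P146.Ub.Ld
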