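import Vale.Agent.P146.Ld.LdFact

/-!
(L2), module STEP, first half: the change of the temperature and the concentration of the fields,
with the disorder at the level `d`.
-/

open MeasureTheory ProbabilityTheory Filter Topology

namespace Vale.Agent.P146.Ub.Ld

set_option linter.unusedSectionVars false

open Vale.Agent.P157 Vale.Agent.P157.Lv Vale.Agent.P157.Lv.Sy
open Vale.Agent.P157.Par (Path Exponents incr spinPart)
open Vale.Agent.P146 (Pair)
open Vale.Agent.P146.Sk (PSK)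

variable {n K N d : ℕ} {m s R : ℕ → ℝ} {β θ : ℝ}

theorem rs_reg (hd : d ≤ K) (hm : Exponents K m) (c : ℝ) (a : (Fin n → Bool) → RI n K → ℝ) :
    (ls (rlv d) K m c a).Reg := (ls_regD hm (rlv_le hd) c a).toReg

theorem rs_sum_ge (hd : d ≤ K) (hm : Exponents K m) :
    ∑ l ∈ Finset.range (K + 1), (m (l + 1) - m l) * (if d ≤ l then (1 : ℝ) else 0) = 1 - m d := by
  have h1 : ∀ l ∈ Finset.range (K + 1), (m (l + 1) - m l) * (if d ≤ l then (1 : ℝ) else 0) =
      if d ≤ l then m (l + 1) - m l else 0 := fun l _ => by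
    split_ifs
    · rw [mul_one]
    · rw [mul_zero]
  rw [Finset.sum_congr rfl h1, ← Finset.sum_filter]
  have h2 : (Finset.range (K + 1)).filter (fun l => d ≤ l) = Finset.Ico d (K + 1) := by
    ext l
    simp only [Finset.mem_filter, Finset.mem_range, Finset.mem_Ico]
    omega
  rw [h2, Finset.sum_Ico_sub m (by omega), hm.2.1]

theorem rs_m_nonneg (hd : d ≤ K + 1) (hm : Exponents K m) : 0 ≤ m d := by
  induction d with
  | zero => exact hm.1.ge
  | succ d ih => exact (ih (by omega)).trans (hm.2.2 d (by omega)).le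

/-- `1 - ∑_{l ≥ d} p_l E_l R² ∈ [m_d, 1]`. -/
theorem rs_q_mem (hd : d ≤ K) (hN : N ≤ n) (h0 : 0 < N) (hm : Exponents K m) (c : ℝ)
    (a : (Fin n → Bool) → RI n K → ℝ) :
    m d ≤ 1 - ∑ l ∈ Finset.range (K + 1), (m (l + 1) - m l) *
        (if d ≤ l then (ls (rlv d) K m c a).pairEx l (fun x x' => Rov (ph hN) x x' ^ 2) else 0) ∧
      1 - ∑ l ∈ Finset.range (K + 1), (m (l + 1) - m l) *
        (if d ≤ l then (ls (rlv d) K m c a).pairEx l (fun x x' => Rov (ph hN) x x' ^ 2) else 0)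
          ≤ 1 := by
  have hR := rs_reg hd hm c a
  have h1 : ∀ l ∈ Finset.range (K + 1),
      0 ≤ (if d ≤ l then (ls (rlv d) K m c a).pairEx l (fun x x' => Rov (ph hN) x x' ^ 2)
        else 0) ∧
      (if d ≤ l then (ls (rlv d) K m c a).pairEx l (fun x x' => Rov (ph hN) x x' ^ 2)
        else 0) ≤ if d ≤ l then (1 : ℝ) else 0 := by
    intro l hl
    have hl' : l ≤ (ls (rlv d) K m c a).K := by
      have := Finset.mem_range.1 hl
      show l ≤ K
      omega
    split_ifs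
    · refine ⟨hR.pairEx_nonneg hl' fun x x' => sq_nonneg _, ?_⟩
      rw [← hR.pairEx_const hl' 1]
      refine hR.pairEx_mono hl' fun x x' => ?_
      have := rs_abs_Rov hN h0 x x'
      rw [← sq_abs]
      exact pow_le_one₀ (abs_nonneg _) this
    · exact ⟨le_rfl, le_rfl⟩
  have h2 : 0 ≤ ∑ l ∈ Finset.range (K + 1), (m (l + 1) - m l) *
        (if d ≤ l then (ls (rlv d) K m c a).pairEx l (fun x x' => Rov (ph hN) x x' ^ 2)
          else 0) :=
    Finset.sum_nonneg fun l hl => mul_nonneg (rs_p_nonneg hm hl) (h1 l hl).1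
  have h3 : ∑ l ∈ Finset.range (K + 1), (m (l + 1) - m l) *
        (if d ≤ l then (ls (rlv d) K m c a).pairEx l (fun x x' => Rov (ph hN) x x' ^ 2)
          else 0) ≤ 1 - m d := by
    rw [← rs_sum_ge hd hm]
    exact Finset.sum_le_sum fun l hl => mul_le_mul_of_nonneg_left (h1 l hl).2
      (rs_p_nonneg hm hl)
  constructor <;> linarith

/-- The mean of the disorder part. -/
theorem rs_Ex_dsk (hd : d ≤ K) (hN : N ≤ n) (hm : Exponents K m) (c γ γ' : ℝ) (s : ℕ → ℝ) :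
    (ls (rlv d) K m c (dsk N γ + fd N s) : Sy (RI n K) (Fin n → Bool)).Ex
      (fun z x => lin (dsk N γ' x) z) =
      γ' * γ * (N : ℝ) ^ 2 / 2 * (1 - ∑ l ∈ Finset.range (K + 1), (m (l + 1) - m l) *
        (if d ≤ l then
          (ls (rlv d) K m c (dsk N γ + fd N s) : Sy (RI n K) (Fin n → Bool)).pairEx l
            (fun x x' => Rov (ph hN) x x' ^ 2) else 0)) - γ' * γ * N / 2 * m d := by
  have hR := rs_reg (n := n) hd hm c (dsk N γ + fd N s)
  rw [ls_Ex_lin hm (rlv_le hd)]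
  have e1 : (fun (_ : RI n K → ℝ) (x : Fin n → Bool) =>
      ∑ e, dsk N γ' x e * (dsk N γ + fd N s : (Fin n → Bool) → RI n K → ℝ) x e) =
      fun _ _ => γ' * γ * ((N : ℝ) ^ 2 - N) / 2 := by
    funext _ x
    have : ∀ e, dsk N γ' x e * (dsk N γ + fd N s : (Fin n → Bool) → RI n K → ℝ) x e =
        dsk N γ' x e * dsk N γ x e := by
      intro e
      show dsk N γ' x e * (dsk N γ x e + fd N s x e) = _
      rw [mul_add, dj_dsk_fd, add_zero]
    rw [Finset.sum_congr rfl fun e _ => this e, sum_dsk hN]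
  rw [e1, hR.Ex_const]
  have e2 : ∀ l ∈ Finset.range (K + 1), (m (l + 1) - m l) *
      (ls (rlv d) K m c (dsk N γ + fd N s) : Sy (RI n K) (Fin n → Bool)).pairEx l
        (cv (rlv d) l (dsk (K := K) N γ') (dsk N γ + fd N s)) =
      (m (l + 1) - m l) * (γ' * γ * (N : ℝ) ^ 2 / 2) *
        (if d ≤ l then (ls (rlv d) K m c (dsk N γ + fd N s) :
          Sy (RI n K) (Fin n → Bool)).pairEx l (fun x x' => Rov (ph hN) x x' ^ 2) else 0) -
        (m (l + 1) - m l) * (if d ≤ l then (1 : ℝ) else 0) * (γ' * γ * N / 2) := by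
    intro l hl
    have hl' : l ≤ (ls (rlv d) K m c (dsk N γ + fd N s) : Sy (RI n K) (Fin n → Bool)).K := by
      have := Finset.mem_range.1 hl
      show l ≤ K
      omega
    have e4 : ∀ x x' : Fin n → Bool, cv (rlv d) l (dsk (K := K) N γ') (dsk N γ + fd N s) x x' =
        cv (rlv d) l (dsk (K := K) N γ') (dsk N γ) x x' := by
      intro x x'
      unfold cv
      refine Finset.sum_congr rfl fun e _ => ?_
      show (if rlv d e ≤ l then dsk N γ' x e * (dsk N γ x' e + fd N s x' e) else 0) = _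
      rw [mul_add, dj_dsk_fd, add_zero]
    by_cases h : d ≤ l
    · rw [if_pos h, if_pos h]
      have e3 : (cv (rlv d) l (dsk (K := K) N γ') (dsk N γ + fd N s) :
          (Fin n → Bool) → (Fin n → Bool) → ℝ) =
          fun x x' => (γ' * γ * (N : ℝ) ^ 2 / 2) * Rov (ph hN) x x' ^ 2 +
            (-(γ' * γ * N / 2)) := by
        funext x x'
        rw [e4, cv_dsk_ge hN h]
        ring
      rw [e3, hR.pairEx_add hl' (fun x x' => (γ' * γ * (N : ℝ) ^ 2 / 2) * Rov (ph hN) x x' ^ 2)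
        (fun _ _ => (-(γ' * γ * N / 2))), hR.pairEx_const_mul, hR.pairEx_const hl']
      ring
    · rw [if_neg h, if_neg h]
      have e3 : (cv (rlv d) l (dsk (K := K) N γ') (dsk N γ + fd N s) :
          (Fin n → Bool) → (Fin n → Bool) → ℝ) = fun _ _ => 0 := by
        funext x x'
        rw [e4, cv_dsk_lt (not_le.1 h)]
      rw [e3, hR.pairEx_const hl']
      ring
  rw [Finset.sum_congr rfl e2, Finset.sum_sub_distrib, ← Finset.sum_mul, rs_sum_ge hd hm]
  have e4 : ∑ l ∈ Finset.range (K + 1), (m (l + 1) - m l) * (γ' * γ * (N : ℝ) ^ 2 / 2) *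
        (if d ≤ l then (ls (rlv d) K m c (dsk N γ + fd N s) :
          Sy (RI n K) (Fin n → Bool)).pairEx l (fun x x' => Rov (ph hN) x x' ^ 2) else 0) =
      γ' * γ * (N : ℝ) ^ 2 / 2 * ∑ l ∈ Finset.range (K + 1), (m (l + 1) - m l) *
        (if d ≤ l then (ls (rlv d) K m c (dsk N γ + fd N s) :
          Sy (RI n K) (Fin n → Bool)).pairEx l (fun x x' => Rov (ph hN) x x' ^ 2) else 0) := by
    rw [Finset.mul_sum]
    exact Finset.sum_congr rfl fun l _ => by ring
  rw [e4]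
  ring

/-- (T1) -/
theorem SC_le (hd : d ≤ K) (hN : N ≤ n) (h0 : 0 < N) (hm : Exponents K m) (s : ℕ → ℝ) :
    (SC n K d m β N s).fe ≤ AN n K d m β N s := by
  obtain ⟨γ, hγ⟩ : ∃ γ, γ = β / √((N + 1 : ℕ) : ℝ) := ⟨_, rfl⟩
  obtain ⟨γ', hγ'⟩ : ∃ γ', γ' = β / √N - β / √((N + 1 : ℕ) : ℝ) := ⟨_, rfl⟩
  have e1 : (st β N s : (Fin n → Bool) → RI n K → ℝ) = sc β N s + dsk N γ' := by
    unfold st sc
    rw [add_right_comm, rs_dsk_add]
    congr 2
    rw [hγ']
    ring
  have h1 := ls_jensen (X := Fin n → Bool) hm (rlv_le hd) (lc n) (sc (n := n) (K := K) β N s)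
    (dsk N γ')
  rw [← e1] at h1
  have h2 := rs_Ex_dsk (n := n) hd hN hm (lc n) γ γ' s
  have e2 : (dsk N γ + fd N s : (Fin n → Bool) → RI n K → ℝ) = sc β N s := by
    unfold sc; rw [hγ]
  rw [e2] at h2
  rw [h2] at h1
  have h3 := (rs_q_mem (K := K) hd hN h0 hm (lc n) (sc (n := n) (K := K) β N s)).1
  have h4 := (rs_sqrt_diff (β := β) h0).2.2
  rw [← hγ', ← hγ] at h4
  have hmd := rs_m_nonneg (show d ≤ K + 1 by omega) hm
  have hN1 : (1 : ℝ) ≤ N := by exact_mod_cast h0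
  have h5 : 0 ≤ γ' * γ * (N : ℝ) ^ 2 / 2 := by
    have : γ' * γ * (N : ℝ) ^ 2 / 2 = γ * γ' * ((N : ℝ) ^ 2 / 2) := by ring
    rw [this]
    exact mul_nonneg h4 (by positivity)
  have h6 := mul_le_mul_of_nonneg_left h3 h5
  have h7 : γ' * γ * N / 2 * m d ≤ γ' * γ * (N : ℝ) ^ 2 / 2 * m d := by
    refine mul_le_mul_of_nonneg_right ?_ hmd
    have e3 : γ' * γ * (N : ℝ) ^ 2 / 2 - γ' * γ * N / 2 = γ * γ' * (N * (N - 1) / 2) := by ring
    have e4 : 0 ≤ γ * γ' * (N * (N - 1) / 2) :=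
      mul_nonneg h4 (div_nonneg (mul_nonneg (by linarith) (by linarith)) (by norm_num))
    linarith
  unfold SC AN SN
  linarith

/-- (T2) -/
theorem SC_ge (hd : d ≤ K) (hN : N ≤ n) (h0 : 0 < N) (hm : Exponents K m) (s : ℕ → ℝ) :
    AN n K d m β N s ≤ (SC n K d m β N s).fe + β ^ 2 / 4 * (1 -
      ∑ l ∈ Finset.range (K + 1), (m (l + 1) - m l) *
        (if d ≤ l then (SN n K d m β N s).pairEx l (fun x x' => Rov (ph hN) x x' ^ 2)
          else 0)) := by
  obtain ⟨γ, hγ⟩ : ∃ γ, γ = β / √(N : ℝ) := ⟨_, rfl⟩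
  obtain ⟨γ', hγ'⟩ : ∃ γ', γ' = β / √N - β / √((N + 1 : ℕ) : ℝ) := ⟨_, rfl⟩
  have e1 : (sc β N s : (Fin n → Bool) → RI n K → ℝ) = st β N s + dsk N (-γ') := by
    unfold st sc
    rw [add_right_comm, rs_dsk_add]
    congr 2
    rw [hγ']
    ring
  have h1 := ls_jensen (X := Fin n → Bool) hm (rlv_le hd) (lc n) (st (n := n) (K := K) β N s)
    (dsk N (-γ'))
  rw [← e1] at h1
  have h2 := rs_Ex_dsk (n := n) hd hN hm (lc n) γ (-γ') s
  have e2 : (dsk N γ + fd N s : (Fin n → Bool) → RI n K → ℝ) = st β N s := by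
    unfold st; rw [hγ]
  rw [e2] at h2
  rw [h2] at h1
  have hmd := rs_m_nonneg (show d ≤ K + 1 by omega) hm
  have h3 := (rs_q_mem (K := K) hd hN h0 hm (lc n) (st (n := n) (K := K) β N s)).1
  have h3' := hmd.trans h3
  have h4 := (rs_sqrt_diff (β := β) h0)
  rw [← hγ', ← hγ] at h4
  have h6 := mul_le_mul_of_nonneg_right h4.1 h3'
  have h8 : 0 ≤ γ * γ' * N / 2 * m d := by
    have := mul_nonneg (mul_nonneg h4.2.1 (Nat.cast_nonneg (α := ℝ) N)) hmd
    linarith
  unfold SC AN SN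
  have h7 : -γ' * γ * (N : ℝ) ^ 2 / 2 = -(γ * γ' * (N : ℝ) ^ 2 / 2) := by ring
  have h9 : -γ' * γ * N / 2 * m d = -(γ * γ' * N / 2 * m d) := by ring
  rw [h7, neg_mul, h9] at h1
  linarith

/-- (D) -/
theorem ST_cmp (hd : d ≤ K) (hN : N + 1 ≤ n) (h0 : 0 < N) (hm : Exponents K m)
    (hR : Path K R) (hR1 : R K ≤ 1) (s : ℕ → ℝ) (θ : ℝ) :
    |(ST n K d m β N s R θ).fe - AN n K d m β N s| ≤ β ^ 2 / 2 := by
  have hN' : N ≤ n := by omega
  have hNn : N < n := by omega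
  have hb2 : 0 ≤ β ^ 2 := sq_nonneg β
  obtain ⟨b, hb⟩ : ∃ b : (Fin n → Bool) → RI n K → ℝ, b = fun x e =>
    Real.sin θ * tre N β R x e + Real.cos θ * cav N (β / √((N + 1 : ℕ) : ℝ)) x e := ⟨_, rfl⟩
  have e1 : (tc β N s R θ : (Fin n → Bool) → RI n K → ℝ) = sc β N s + b := by
    rw [hb]
    rfl
  have hdj : ∀ e x x', b x e * (sc β N s : (Fin n → Bool) → RI n K → ℝ) x' e = 0 := by
    intro e x x'
    have h1 := dj_tre_sc (N := N) (s := s) (β := β) (R := R) β e x x'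
    have h2 := dj_cav_sc (N := N) (s := s) (β := β) (β / √((N + 1 : ℕ) : ℝ)) e x x'
    rw [hb]
    show (Real.sin θ * tre N β R x e + Real.cos θ * cav N (β / √((N + 1 : ℕ) : ℝ)) x e) *
      sc β N s x' e = 0
    linear_combination Real.sin θ * h1 + Real.cos θ * h2
  have hV : ∀ x, ∑ e, b x e ^ 2 ≤ β ^ 2 := by
    intro x
    have h1 : ∀ e, b x e ^ 2 = Real.sin θ ^ 2 * tre N β R x e ^ 2 +
        Real.cos θ ^ 2 * cav N (β / √((N + 1 : ℕ) : ℝ)) x e ^ 2 := by
      intro e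
      have h2 := dj_tre_cav (N := N) (R := R) β (β / √((N + 1 : ℕ) : ℝ)) e x x
      rw [hb]
      show (Real.sin θ * tre N β R x e + Real.cos θ * cav N (β / √((N + 1 : ℕ) : ℝ)) x e) ^ 2 = _
      linear_combination 2 * Real.sin θ * Real.cos θ * h2
    rw [Finset.sum_congr rfl fun e _ => h1 e, Finset.sum_add_distrib, ← Finset.mul_sum,
      ← Finset.mul_sum, sum_tre hNn β hR, sum_cav hNn]
    have h3 : (β / √((N + 1 : ℕ) : ℝ)) ^ 2 * N ≤ β ^ 2 := by
      rw [div_pow, Real.sq_sqrt (by positivity), div_mul_eq_mul_div, div_le_iff₀ (by positivity)]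
      push_cast
      nlinarith
    have h4 : β ^ 2 * R K ≤ β ^ 2 := mul_le_of_le_one_right hb2 hR1
    have h5 := Real.sin_sq_add_cos_sq θ
    calc Real.sin θ ^ 2 * (β ^ 2 * R K) + Real.cos θ ^ 2 * ((β / √((N + 1 : ℕ) : ℝ)) ^ 2 * N) ≤
          Real.sin θ ^ 2 * β ^ 2 + Real.cos θ ^ 2 * β ^ 2 :=
          add_le_add (mul_le_mul_of_nonneg_left h4 (sq_nonneg _))
            (mul_le_mul_of_nonneg_left h3 (sq_nonneg _))
      _ = β ^ 2 := by rw [← add_mul, h5, one_mul]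
  have u1 := ls_add_le hm (rlv_le hd) (lc n) hdj hV
  have u2 := ls_le_add hm (rlv_le hd) (lc n) hdj
  rw [← e1] at u1 u2
  have u3 := SC_le (n := n) (K := K) (β := β) hd hN' h0 hm s
  have u4 := SC_ge (n := n) (K := K) (β := β) hd hN' h0 hm s
  have u5 := (rs_q_mem (K := K) hd hN' h0 hm (lc n) (st (n := n) (K := K) β N s)).2
  have u6 : β ^ 2 / 4 * (1 - ∑ l ∈ Finset.range (K + 1), (m (l + 1) - m l) *
        (if d ≤ l then (SN n K d m β N s).pairEx l (fun x x' => Rov (ph hN') x x' ^ 2)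
          else 0)) ≤ β ^ 2 / 4 :=
    mul_le_of_le_one_right (by positivity) u5
  unfold ST
  unfold SC at u3 u4
  rw [abs_le]
  constructor <;> linarith

/-- (P1) The tangent inequality in the strengths. -/
theorem AN_tangent (hd : d ≤ K) (hN : N ≤ n) (hm : Exponents K m) (s : ℕ → ℝ)
    {j : ℕ} (hj : j ≤ K) (x : ℝ) :
    AN n K d m β N s + x * (SN n K d m β N s).Ex (gx hN j) ≤
      AN n K d m β N (Function.update s j (s j + x)) := by
  have hR : (SN n K d m β N s).Reg := rs_reg hd hm _ _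
  have hR' : ((SN n K d m β N s).pt (gx hN j) x).Reg := by
    rw [SN_pt hN hj]
    exact rs_reg hd hm _ _
  have h1 := Reg.jensen hR hR'
  have e1 : (fun (z : RI n K → ℝ) (y : Fin n → Bool) =>
      ((SN n K d m β N s).H z y + x * gx hN j z y) - (SN n K d m β N s).H z y) =
      fun z y => x * gx hN j z y := by
    funext z y
    ring
  rw [e1, Sy.Ex_const_mul] at h1
  have e2 : ((SN n K d m β N s).wH fun z y => (SN n K d m β N s).H z y + x * gx hN j z y) =
      SN n K d m β N (Function.update s j (s j + x)) := SN_pt hN hj x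
  rw [e2] at h1
  unfold AN
  have e3 : (SN n K d m β N s).Ex (fun z y => gx hN j z y) =
    (SN n K d m β N s).Ex (gx hN j) := rfl
  rw [e3] at h1
  linarith

theorem AN_slope (hd : d ≤ K) (hN : N ≤ n) (h0 : 0 < N) (hm : Exponents K m)
    (hs : ∀ l ≤ K, 0 ≤ s l) {j : ℕ} (hj : j ≤ K) :
    0 ≤ (SN n K d m β N s).Ex (gx hN j) ∧ (SN n K d m β N s).Ex (gx hN j) ≤ N * s j := by
  have F := SN_fld (β := β) hd hN h0 hm hs
  have hN0 : (0 : ℝ) < N := by exact_mod_cast h0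
  rw [rs_Ex_gx hN h0]
  have hj' : j ≤ (SN n K d m β N s).K := hj
  rw [F.Ex_hz hj']
  have h1 : ∀ i ∈ Finset.Ico j (K + 1),
      0 ≤ (SN n K d m β N s).p i * (SN n K d m β N s).Rl (ph hN) i ∧
      (SN n K d m β N s).p i * (SN n K d m β N s).Rl (ph hN) i ≤ m (i + 1) - m i := by
    intro i hi
    have hi' := Finset.mem_Ico.1 hi
    have h2 : 0 ≤ (SN n K d m β N s).p i := rs_p_nonneg hm (Finset.mem_range.2 hi'.2)
    have hi2 : i ≤ (SN n K d m β N s).K := by show i ≤ K; omega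
    exact ⟨mul_nonneg h2 (F.Rl_nonneg hi2), mul_le_of_le_one_right h2 (F.Rl_le_one hi2)⟩
  have h2 : 0 ≤ ∑ i ∈ Finset.Ico j ((SN n K d m β N s).K + 1),
      (SN n K d m β N s).p i * (SN n K d m β N s).Rl (ph hN) i :=
    Finset.sum_nonneg fun i hi => (h1 i hi).1
  have h3 : ∑ i ∈ Finset.Ico j ((SN n K d m β N s).K + 1),
      (SN n K d m β N s).p i * (SN n K d m β N s).Rl (ph hN) i ≤ 1 := by
    have h4 : ∑ i ∈ Finset.Ico j ((SN n K d m β N s).K + 1),
        (SN n K d m β N s).p i * (SN n K d m β N s).Rl (ph hN) i ≤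
        ∑ i ∈ Finset.Ico j (K + 1), (m (i + 1) - m i) := Finset.sum_le_sum fun i hi => (h1 i hi).2
    have h5 : ∑ i ∈ Finset.Ico j (K + 1), (m (i + 1) - m i) ≤
        ∑ i ∈ Finset.range (K + 1), (m (i + 1) - m i) :=
      Finset.sum_le_sum_of_subset_of_nonneg (by
        intro i hi
        exact Finset.mem_range.2 (Finset.mem_Ico.1 hi).2) fun i hi _ => rs_p_nonneg hm hi
    rw [rs_sum_p hm] at h5
    exact h4.trans h5
  have hsj := hs j hj
  constructor
  · exact mul_nonneg hN0.le (mul_nonneg hsj (by linarith))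
  · refine mul_le_mul_of_nonneg_left ?_ hN0.le
    exact mul_le_of_le_one_right hsj (by linarith)

/-- (E) Concentration, uniformly in the path and the angle. -/
theorem ST_conc (hd1 : 1 ≤ d) (hd : d ≤ K) (hN : N + 1 ≤ n) (h0 : 0 < N) (hm : Exponents K m)
    (hR : Path K R) (hR1 : R K ≤ 1) (hs : ∀ l ≤ K, 0 ≤ s l) (hs1 : s 0 ≤ 1) {t : ℝ} (ht : 0 < t)
    (ht1 : t ≤ 1) (θ : ℝ) {j : ℕ} (hj : j ≤ K) :
    (ST n K d m β N s R θ).Ex (fun z x => |hz (ph (Nat.le_of_succ_le hN))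
        (zc (Nat.le_of_succ_le hN)) j z x - (SN n K d m β N s).Ex (hz (ph (Nat.le_of_succ_le hN))
        (zc (Nat.le_of_succ_le hN)) j)|) ≤ ej n K d m β N s t j := by
  have hN' : N ≤ n := Nat.le_of_succ_le hN
  have hN0 : (0 : ℝ) < N := by exact_mod_cast h0
  have hReg : (ST n K d m β N s R θ).Reg := rs_reg hd hm _ _
  have hRegt : ∀ t', ((ST n K d m β N s R θ).pt (gx hN' j) t').Reg := by
    intro t'
    rw [ST_pt hN' hj]
    exact rs_reg hd hm _ _
  have h1 := conc_abs hReg (nh_gx hN' j) hRegt (t := t) (F0 := AN n K d m β N s)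
    (Fp := AN n K d m β N (Function.update s j (s j + t)))
    (Fm := AN n K d m β N (Function.update s j (s j - t)))
    (c₀ := (SN n K d m β N s).Ex (gx hN' j)) (B := β ^ 2 / 2)
    (V := 2 * ((2 * β ^ 2 + 4) * N)) ht
    (ST_cmp hd hN h0 hm hR hR1 s θ)
    (by rw [ST_pt hN' hj]; exact ST_cmp hd hN h0 hm hR hR1 _ θ)
    (by
      rw [ST_pt hN' hj, ← sub_eq_add_neg]
      exact ST_cmp hd hN h0 hm hR hR1 _ θ)
    (AN_tangent hd hN' hm s hj t)
    (by
      have := AN_tangent (β := β) hd hN' hm s hj (-t)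
      rw [← sub_eq_add_neg, neg_mul, ← sub_eq_add_neg] at this
      exact this)
    (by
      intro t' ht'
      rw [ST_pt hN' hj]
      exact ST_var hd1 hd hN h0 hm (rs_abs_update hs hs1 ht ht1 ht' j) hR hR1)
  have e1 : (ST n K d m β N s R θ).Ex (fun z x => |hz (ph hN') (zc hN') j z x -
      (SN n K d m β N s).Ex (hz (ph hN') (zc hN') j)|) =
      1 / N * (ST n K d m β N s R θ).Ex (fun z x => |gx hN' j z x -
        (SN n K d m β N s).Ex (gx hN' j)|) := by
    rw [← Sy.Ex_const_mul]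
    congr 1
    funext z x
    rw [rs_Ex_gx hN' h0, hz_eq_gx]
    have e2 : 1 / (N : ℝ) * gx hN' j z x - (SN n K d m β N s).Ex (hz (ph hN') (zc hN') j) =
        1 / N * (gx hN' j z x - N * (SN n K d m β N s).Ex (hz (ph hN') (zc hN') j)) := by
      field_simp
    rw [e2, abs_mul, abs_of_pos (by positivity)]
  rw [e1]
  refine (mul_le_mul_of_nonneg_left h1 (by positivity)).trans (le_of_eq ?_)
  unfold ej dl
  have e3 : (ST n K d m β N s R θ).m 1 = m 1 := rfl
  rw [e3]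
  field_simp
  ring

theorem SN_conc (hd1 : 1 ≤ d) (hd : d ≤ K) (hN : N ≤ n) (h0 : 0 < N) (hm : Exponents K m)
    (hs : ∀ l ≤ K, 0 ≤ s l) (hs1 : s 0 ≤ 1) {t : ℝ} (ht : 0 < t) (ht1 : t ≤ 1) {j : ℕ}
    (hj : j ≤ K) :
    (SN n K d m β N s).Ex (fun z x => |hz (ph hN) (zc hN) j z x -
      (SN n K d m β N s).Ex (hz (ph hN) (zc hN) j)|) ≤ ej n K d m β N s t j := by
  have hN0 : (0 : ℝ) < N := by exact_mod_cast h0
  have hReg : (SN n K d m β N s).Reg := rs_reg hd hm _ _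
  have hRegt : ∀ t', ((SN n K d m β N s).pt (gx hN j) t').Reg := by
    intro t'
    rw [SN_pt hN hj]
    exact rs_reg hd hm _ _
  have hB : 0 ≤ β ^ 2 / 2 := by positivity
  have h1 := conc_abs hReg (nh_gx hN j) hRegt (t := t) (F0 := AN n K d m β N s)
    (Fp := AN n K d m β N (Function.update s j (s j + t)))
    (Fm := AN n K d m β N (Function.update s j (s j - t)))
    (c₀ := (SN n K d m β N s).Ex (gx hN j)) (B := β ^ 2 / 2)
    (V := 2 * ((2 * β ^ 2 + 4) * N)) ht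
    (by unfold AN; rw [sub_self, abs_zero]; exact hB)
    (by rw [SN_pt hN hj]; unfold AN; rw [sub_self, abs_zero]; exact hB)
    (by
      rw [SN_pt hN hj, ← sub_eq_add_neg]
      unfold AN
      rw [sub_self, abs_zero]; exact hB)
    (AN_tangent hd hN hm s hj t)
    (by
      have := AN_tangent (β := β) hd hN hm s hj (-t)
      rw [← sub_eq_add_neg, neg_mul, ← sub_eq_add_neg] at this
      exact this)
    (by
      intro t' ht'
      rw [SN_pt hN hj]
      exact SN_var hd1 hd hN h0 hm (rs_abs_update hs hs1 ht ht1 ht' j))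
  have e1 : (SN n K d m β N s).Ex (fun z x => |hz (ph hN) (zc hN) j z x -
      (SN n K d m β N s).Ex (hz (ph hN) (zc hN) j)|) =
      1 / N * (SN n K d m β N s).Ex (fun z x => |gx hN j z x -
        (SN n K d m β N s).Ex (gx hN j)|) := by
    rw [← Sy.Ex_const_mul]
    congr 1
    funext z x
    rw [rs_Ex_gx hN h0, hz_eq_gx]
    have e2 : 1 / (N : ℝ) * gx hN j z x - (SN n K d m β N s).Ex (hz (ph hN) (zc hN) j) =
        1 / N * (gx hN j z x - N * (SN n K d m β N s).Ex (hz (ph hN) (zc hN) j)) := by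
      field_simp
    rw [e2, abs_mul, abs_of_pos (by positivity)]
  rw [e1]
  refine (mul_le_mul_of_nonneg_left h1 (by positivity)).trans (le_of_eq ?_)
  unfold ej dl
  have e3 : (SN n K d m β N s).m 1 = m 1 := rfl
  rw [e3]
  field_simp
  ring

end Vale.Agent.P146.Ub.Ld
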