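import Vale.Agent.P146.Ld.LdStep1

/-!
(L2), module STEP, second half: the overlaps and the step, with the disorder at the level `d`.
-/

open MeasureTheory ProbabilityTheory Filter Topology

namespace Vale.Agent.P146.Ub.Ld

set_option linter.unusedSectionVars false

open Vale.Agent.P157 Vale.Agent.P157.Lv Vale.Agent.P157.Lv.Sy
open Vale.Agent.P157.Par (Path Exponents incr spinPart)
open Vale.Agent.P146 (Pair)
open Vale.Agent.P146.Sk (PSK)

variable {n K N d : ℕ} {m s R : ℕ → ℝ} {β θ : ℝ}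

/-- Deviations for any system with the fields `s` whose fields are concentrated at the means of the
stage `N`. -/

theorem rs_dev (hd : d ≤ K) (hN : N ≤ n) (h0 : 0 < N) {c : ℝ} {a : (Fin n → Bool) → RI n K → ℝ}
    {D : RI n K → (RI n K → ℝ) → (Fin n → Bool) → ℝ}
    (F : Fld (ls (rlv d) K (me K) c a) D (ph hN) (zc hN) s)
    {σ ε : ℝ} (hσ : 0 < σ) (hs : ∀ l ≤ K, σ ≤ s l) (hε : 0 ≤ ε)
    (hc : ∀ j ≤ K, (ls (rlv d) K (me K) c a).Ex (fun z x => |hz (ph hN) (zc hN) j z x -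
      (SN n K d (me K) β N s).Ex (hz (ph hN) (zc hN) j)|) ≤ ε) :
    ∑ l ∈ Finset.range (K + 1), (me K (l + 1) - me K l) *
      (ls (rlv d) K (me K) c a).pairEx l (fun x x' => |Rov (ph hN) x x' - stR (SN n K d (me K) β N s) (ph hN) l|) ≤
      wE K σ ε := by
  set S := ls (rlv d) K (me K) c a with hSdef
  have hm := me_exp K
  have hS := F.hreg
  have hs0 : ∀ l ≤ K, 0 ≤ s l := fun l hl => hσ.le.trans (hs l hl)
  have F0 := SN_fld (β := β) hd hN h0 hm hs0
  have hK0 : (0 : ℝ) < ((K + 1 : ℕ) : ℝ) := by positivity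
  have hp : ∀ l, S.p l = 1 / ((K + 1 : ℕ) : ℝ) := fun l => by
    show me K (l + 1) - me K l = _
    rw [rs_me_p]
  have hp0 : ∀ l, (SN n K d (me K) β N s).p l = 1 / ((K + 1 : ℕ) : ℝ) := fun l => by
    show me K (l + 1) - me K l = _
    rw [rs_me_p]
  -- the deviations from the own path
  have hE : 0 ≤ 20 * ε / (σ * (1 / ((K + 1 : ℕ) : ℝ))) := by positivity
  have h1 := st_pair F (δ := 1 / ((K + 1 : ℕ) : ℝ)) hE (fun l _ => (hp l).le)
    (fun l hl => F.sync hε hσ hs (by positivity) (fun l _ => (hp l).ge)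
      (fun l hl => ⟨_, hc l hl⟩) hl)
  -- the difference of the paths
  have hD : ∀ j ≤ K + 1, |∑ i ∈ Finset.Ico j (K + 1), 1 / ((K + 1 : ℕ) : ℝ) *
      (S.Rl (ph hN) i - (SN n K d (me K) β N s).Rl (ph hN) i)| ≤ ε / σ := by
    intro j hj
    rcases Nat.lt_or_ge j (K + 1) with hj' | hj'
    · have hjK : j ≤ K := by omega
      have a1 : S.Ex (hz (ph hN) (zc hN) j) =
          s j * (1 - ∑ i ∈ Finset.Ico j (K + 1), S.p i * S.Rl (ph hN) i) := F.Ex_hz hjK
      have a2 : (SN n K d (me K) β N s).Ex (hz (ph hN) (zc hN) j) =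
          s j * (1 - ∑ i ∈ Finset.Ico j (K + 1), (SN n K d (me K) β N s).p i *
            (SN n K d (me K) β N s).Rl (ph hN) i) := F0.Ex_hz (l := j) hjK
      have a3 : |S.Ex (hz (ph hN) (zc hN) j) -
          (SN n K d (me K) β N s).Ex (hz (ph hN) (zc hN) j)| ≤ ε := by
        have n1 : Nh (hz (ph hN) (zc hN) j : (RI n K → ℝ) → (Fin n → Bool) → ℝ) := F.nh_hz j
        have a4 := hS.abs_Ex_le (f := fun z x => hz (ph hN) (zc hN) j z x -
          (SN n K d (me K) β N s).Ex (hz (ph hN) (zc hN) j)) (Nh.sub n1 (fun _ => EG.const _))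
        rw [hS.Ex_sub n1 (fun _ => EG.const _), hS.Ex_const] at a4
        exact a4.trans (hc j hjK)
      rw [a1, a2] at a3
      have a5 : s j * (1 - ∑ i ∈ Finset.Ico j (K + 1), S.p i * S.Rl (ph hN) i) -
          s j * (1 - ∑ i ∈ Finset.Ico j (K + 1),
            (SN n K d (me K) β N s).p i * (SN n K d (me K) β N s).Rl (ph hN) i) =
          -(s j * ∑ i ∈ Finset.Ico j (K + 1), 1 / ((K + 1 : ℕ) : ℝ) *
      (S.Rl (ph hN) i - (SN n K d (me K) β N s).Rl (ph hN) i)) := by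
        have a6 : ∑ i ∈ Finset.Ico j (K + 1), 1 / ((K + 1 : ℕ) : ℝ) *
            (S.Rl (ph hN) i - (SN n K d (me K) β N s).Rl (ph hN) i) =
            ∑ i ∈ Finset.Ico j (K + 1), S.p i * S.Rl (ph hN) i -
            ∑ i ∈ Finset.Ico j (K + 1),
            (SN n K d (me K) β N s).p i * (SN n K d (me K) β N s).Rl (ph hN) i := by
          rw [← Finset.sum_sub_distrib]
          refine Finset.sum_congr rfl fun i _ => ?_
          rw [hp, hp0]
          ring
        rw [a6]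
        ring
      rw [a5, abs_neg, abs_mul, abs_of_nonneg (hs0 j hjK)] at a3
      rw [le_div_iff₀ hσ]
      have a8 := mul_le_mul_of_nonneg_left (hs j hjK) (abs_nonneg
        (∑ i ∈ Finset.Ico j (K + 1), 1 / ((K + 1 : ℕ) : ℝ) *
      (S.Rl (ph hN) i - (SN n K d (me K) β N s).Rl (ph hN) i)))
      rw [mul_comm _ (s j)] at a8
      exact a8.trans a3
    · rw [Finset.Ico_eq_empty (by omega), Finset.sum_empty, abs_zero]
      positivity
  have hdl : ∀ l < K, 1 / ((K + 1 : ℕ) : ℝ) *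
      |S.Rl (ph hN) l - (SN n K d (me K) β N s).Rl (ph hN) l| ≤ 2 * (ε / σ) := by
    intro l hl
    have b1 := hD l (by omega)
    have b2 := hD (l + 1) (by omega)
    rw [Finset.sum_eq_sum_Ico_succ_bot (show l < K + 1 by omega)] at b1
    have b3 := abs_le.1 b1
    have b4 := abs_le.1 b2
    have b5 : 1 / ((K + 1 : ℕ) : ℝ) *
      |S.Rl (ph hN) l - (SN n K d (me K) β N s).Rl (ph hN) l| = |1 / ((K + 1 : ℕ) : ℝ) *
      (S.Rl (ph hN) l - (SN n K d (me K) β N s).Rl (ph hN) l)| := by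
      rw [abs_mul, abs_of_pos (a := 1 / ((K + 1 : ℕ) : ℝ)) (by positivity)]
    rw [b5, abs_le]
    constructor <;> linarith
  -- sum
  have h2 : ∀ l ∈ Finset.range (K + 1), (me K (l + 1) - me K l) *
      S.pairEx l (fun x x' => |Rov (ph hN) x x' - stR (SN n K d (me K) β N s) (ph hN) l|) ≤
      S.p l * S.pairEx l (fun x x' => |Rov (ph hN) x x' - stR S (ph hN) l|) + 2 * (ε / σ) := by
    intro l hl
    have hl' : l ≤ K := by have := Finset.mem_range.1 hl; omega
    have c1 : me K (l + 1) - me K l = S.p l := by rw [hp, rs_me_p]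
    rw [c1]
    have c2 : S.p l * |stR S (ph hN) l - stR (SN n K d (me K) β N s) (ph hN) l| ≤
        2 * (ε / σ) := by
      rcases Nat.lt_or_eq_of_le hl' with h | h
      · have c3 : stR S (ph hN) l = S.Rl (ph hN) l := by
          unfold stR
          rw [if_pos]
          exact h
        have c4 : stR (SN n K d (me K) β N s) (ph hN) l =
            (SN n K d (me K) β N s).Rl (ph hN) l := by
          unfold stR
          rw [if_pos]
          exact h
        rw [c3, c4, hp]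
        exact hdl l h
      · have c5' : stR S (ph hN) K = 1 := stR_last S (ph hN)
        have c5 : stR (SN n K d (me K) β N s) (ph hN) K = 1 := stR_last _ _
        rw [h, c5', c5, sub_self, abs_zero, mul_zero]
        positivity
    have c6 : S.pairEx l (fun x x' => |Rov (ph hN) x x' -
        stR (SN n K d (me K) β N s) (ph hN) l|) ≤
        S.pairEx l (fun x x' => |Rov (ph hN) x x' - stR S (ph hN) l|) +
          |stR S (ph hN) l - stR (SN n K d (me K) β N s) (ph hN) l| := by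
      have c7 := hS.pairEx_add hl' (fun x x' => |Rov (ph hN) x x' - stR S (ph hN) l|)
        (fun _ _ => |stR S (ph hN) l - stR (SN n K d (me K) β N s) (ph hN) l|)
      rw [hS.pairEx_const hl'] at c7
      rw [← c7]
      refine hS.pairEx_mono hl' fun x x' => ?_
      have := abs_add_le (Rov (ph hN) x x' - stR S (ph hN) l)
        (stR S (ph hN) l - stR (SN n K d (me K) β N s) (ph hN) l)
      rwa [sub_add_sub_cancel] at this
    have c8 : 0 ≤ S.p l := by rw [hp]; positivity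
    have c9 := mul_le_mul_of_nonneg_left c6 c8
    rw [mul_add] at c9
    linarith
  refine (Finset.sum_le_sum h2).trans ?_
  rw [Finset.sum_add_distrib, Finset.sum_const, Finset.card_range, nsmul_eq_mul]
  unfold wE
  have d1 : √(2 * (1 / ((K + 1 : ℕ) : ℝ))) = √(2 / ((K + 1 : ℕ) : ℝ)) := by
    congr 1; ring
  have d2 : 2 * (1 / ((K + 1 : ℕ) : ℝ)) = 2 / ((K + 1 : ℕ) : ℝ) := by ring
  have d3 : 20 * ε / (σ * (1 / ((K + 1 : ℕ) : ℝ))) = 20 * ε * ((K + 1 : ℕ) : ℝ) / σ := by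
    field_simp
  rw [d1, d2, d3] at h1
  have d4 : ((K + 1 : ℕ) : ℝ) * (2 * (ε / σ)) = 2 * ((K + 1 : ℕ) : ℝ) * ε / σ := by ring
  have d5 : S.K = K := rfl
  rw [d5] at h1
  rw [d4]
  linarith

theorem rs_ej_nonneg (hd1 : 1 ≤ d) (hd : d ≤ K) (hN : N ≤ n) (h0 : 0 < N) (hm : Exponents K m)
    (hs : ∀ l ≤ K, 0 ≤ s l) (hs1 : s 0 ≤ 1) {t : ℝ} (ht : 0 < t) (ht1 : t ≤ 1) {j : ℕ}
    (hj : j ≤ K) : 0 ≤ ej n K d m β N s t j := by
  have hR : (SN n K d m β N s).Reg := rs_reg hd hm _ _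
  refine le_trans ?_ (SN_conc hd1 hd hN h0 hm hs hs1 ht ht1 hj)
  rw [← hR.Ex_const 0]
  have F := SN_fld (β := β) hd hN h0 hm hs
  exact hR.Ex_mono (fun _ => EG.const 0) (Nh.abs (Nh.sub (F.nh_hz j) (fun _ => EG.const _)))
    fun z x => abs_nonneg _

theorem rs_ej_le (hd1 : 1 ≤ d) (hd : d ≤ K) (hN : N ≤ n) (h0 : 0 < N) (hm : Exponents K m)
    (hs : ∀ l ≤ K, 0 ≤ s l) (hs1 : s 0 ≤ 1) {t : ℝ} (ht : 0 < t) (ht1 : t ≤ 1) {j : ℕ}
    (hj : j ≤ K) : ej n K d m β N s t j ≤ ee n K d m β N s t := by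
  unfold ee
  exact Finset.single_le_sum (f := fun j => ej n K d m β N s t j)
    (fun i hi => rs_ej_nonneg hd1 hd hN h0 hm hs hs1 ht ht1
      (by have := Finset.mem_range.1 hi; omega)) (Finset.mem_range.2 (by omega))

theorem rs_ee_nonneg (hd1 : 1 ≤ d) (hd : d ≤ K) (hN : N ≤ n) (h0 : 0 < N) (hm : Exponents K m)
    (hs : ∀ l ≤ K, 0 ≤ s l) (hs1 : s 0 ≤ 1) {t : ℝ} (ht : 0 < t) (ht1 : t ≤ 1) :
    0 ≤ ee n K d m β N s t :=
  Finset.sum_nonneg fun i hi => rs_ej_nonneg hd1 hd hN h0 hm hs hs1 ht ht1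
      (by have := Finset.mem_range.1 hi; omega)

/-- (F) The overlaps. -/

theorem ST_dev (hd1 : 1 ≤ d) (hd : d ≤ K) (hN : N + 1 ≤ n) (h0 : 0 < N)
    (hR : Path K R) (hR1 : R K ≤ 1) {σ : ℝ} (hσ : 0 < σ) (hs : ∀ l ≤ K, σ ≤ s l)
    (hs1 : s 0 ≤ 1) {t : ℝ} (ht : 0 < t) (ht1 : t ≤ 1) (θ : ℝ) :
    ∑ l ∈ Finset.range (K + 1), (me K (l + 1) - me K l) *
      (ST n K d (me K) β N s R θ).pairEx l (fun x x' => |Rov (ph (Nat.le_of_succ_le hN)) x x' -
        stR (SN n K d (me K) β N s) (ph (Nat.le_of_succ_le hN)) l|) ≤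
      wE K σ (ee n K d (me K) β N s t) := by
  have hs0 : ∀ l ≤ K, 0 ≤ s l := fun l hl => hσ.le.trans (hs l hl)
  have hN' : N ≤ n := Nat.le_of_succ_le hN
  exact rs_dev hd hN' h0 (ST_fld (β := β) (R := R) (θ := θ) hd hN' h0 (me_exp K) hs0) hσ hs
    (rs_ee_nonneg hd1 hd hN' h0 (me_exp K) hs0 hs1 ht ht1)
    (fun j hj => (ST_conc hd1 hd hN h0 (me_exp K) hR hR1 hs0 hs1 ht ht1 θ hj).trans
      (rs_ej_le hd1 hd hN' h0 (me_exp K) hs0 hs1 ht ht1 hj))

theorem SN_dev (hd1 : 1 ≤ d) (hd : d ≤ K) (hN : N ≤ n) (h0 : 0 < N)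
    {σ : ℝ} (hσ : 0 < σ) (hs : ∀ l ≤ K, σ ≤ s l)
    (hs1 : s 0 ≤ 1) {t : ℝ} (ht : 0 < t) (ht1 : t ≤ 1) :
    ∑ l ∈ Finset.range (K + 1), (me K (l + 1) - me K l) *
      (SN n K d (me K) β N s).pairEx l (fun x x' => |Rov (ph hN) x x' -
        stR (SN n K d (me K) β N s) (ph hN) l|) ≤
      wE K σ (ee n K d (me K) β N s t) := by
  have hs0 : ∀ l ≤ K, 0 ≤ s l := fun l hl => hσ.le.trans (hs l hl)
  exact rs_dev hd hN h0 (SN_fld (β := β) hd hN h0 (me_exp K) hs0) hσ hs
    (rs_ee_nonneg hd1 hd hN h0 (me_exp K) hs0 hs1 ht ht1)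
    (fun j hj => (SN_conc hd1 hd hN h0 (me_exp K) hs0 hs1 ht ht1 hj).trans
      (rs_ej_le hd1 hd hN h0 (me_exp K) hs0 hs1 ht ht1 hj))

/-- (H) **The step.** -/
theorem AN_step (hd1 : 1 ≤ d) (hd : d ≤ K) (hN : N + 1 ≤ n) (h0 : 0 < N) (hβ : 0 ≤ β)
    {σ : ℝ} (hσ : 0 < σ)
    (hs : ∀ l ≤ K, σ ≤ s l) (hs1 : s 0 ≤ 1) {t : ℝ} (ht : 0 < t) (ht1 : t ≤ 1) :
    PSK β K (me K) (ct d (stR (SN n K d (me K) β N s) (ph (Nat.le_of_succ_le hN)))) ≤
      AN n K d (me K) β (N + 1) s - AN n K d (me K) β N s + β ^ 2 / (N + 1 : ℕ) +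
        β ^ 2 * wE K σ (ee n K d (me K) β N s t) := by
  have hs0 : ∀ l ≤ K, 0 ≤ s l := fun l hl => hσ.le.trans (hs l hl)
  have hN' : N ≤ n := Nat.le_of_succ_le hN
  have hNn : N < n := hN
  have hm := me_exp K
  have hb2 : 0 ≤ β ^ 2 := sq_nonneg β
  have hN1 : (0 : ℝ) < ((N + 1 : ℕ) : ℝ) := by positivity
  have F0 := SN_fld (β := β) hd hN' h0 hm hs0
  obtain ⟨R₀, hRdef⟩ : ∃ R, R = stR (SN n K d (me K) β N s) (ph hN') := ⟨_, rfl⟩
  obtain ⟨R, hRc⟩ : ∃ R, R = ct d R₀ := ⟨_, rfl⟩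
  obtain ⟨W, hW⟩ : ∃ W, W = wE K σ (ee n K d (me K) β N s t) := ⟨_, rfl⟩
  have hR₀ : Path K R₀ := by rw [hRdef]; exact st_path F0
  have hRK₀ : R₀ K = 1 := by rw [hRdef]; exact stR_last (SN n K d (me K) β N s) (ph hN')
  have hR : Path K R := by rw [hRc]; exact ct_path hR₀
  have hRK : R K = 1 := by rw [hRc, ct_ge hd, hRK₀]
  have hRlt : ∀ l, l < d → R l = 0 := fun l hl => by rw [hRc, ct_lt hl]
  have hRge : ∀ l, d ≤ l → R l = R₀ l := fun l hl => by rw [hRc, ct_ge hl]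
  have hR1 : R K ≤ 1 := hRK.le
  have hRm : ∀ l ≤ K, 0 ≤ R l ∧ R l ≤ 1 := by
    have mono : ∀ i j, i ≤ j → j ≤ K → R i ≤ R j := by
      intro i j hij
      induction j, hij using Nat.le_induction with
      | base => intro _; exact le_rfl
      | succ j _ ih => intro hj; exact (ih (by omega)).trans (hR.2 j (by omega))
    intro l hl
    exact ⟨hR.1.trans (mono 0 l (Nat.zero_le _) hl), (mono l K hl le_rfl).trans hR1⟩
  have hdev : ∀ θ, ∑ l ∈ Finset.range (K + 1), (me K (l + 1) - me K l) *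
      (ST n K d (me K) β N s R θ).pairEx l (fun x x' => |Rov (ph hN') x x' - R₀ l|) ≤ W := by
    intro θ
    have h1 := ST_dev (β := β) hd1 hd hN h0 hR hR1 hσ hs hs1 ht ht1 θ
    rw [hW]
    rw [← hRdef] at h1
    exact h1
  have hdev0 : ∑ l ∈ Finset.range (K + 1), (me K (l + 1) - me K l) *
      (SN n K d (me K) β N s).pairEx l (fun x x' => |Rov (ph hN') x x' - R₀ l|) ≤ W := by
    have h1 := SN_dev (β := β) hd1 hd hN' h0 hσ hs hs1 ht ht1
    rw [hW]
    rw [← hRdef] at h1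
    exact h1
  rw [← hRdef, ← hRc, ← hW]
  obtain ⟨γ, hγ⟩ : ∃ γ, γ = β / √((N + 1 : ℕ) : ℝ) := ⟨_, rfl⟩
  have hγ2 : γ ^ 2 = β ^ 2 / ((N + 1 : ℕ) : ℝ) := by
    rw [hγ, div_pow, Real.sq_sqrt hN1.le]
  have hγN : β ^ 2 - γ ^ 2 * N = β ^ 2 / ((N + 1 : ℕ) : ℝ) := by
    rw [hγ2]
    field_simp
    push_cast
    ring
  have hsum := rs_sum_p hm
  -- (1)
  have h1 := AN_succ_ge hd hN hm β s
  -- (2)
  have h2 := ls_interp (X := Fin n → Bool) (a := sc (n := n) (K := K) β N s) (α := tre N β R)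
    (β := cav N γ) hm (rlv_le hd) (lc n) (B := 2 * (β ^ 2 / ((N + 1 : ℕ) : ℝ)) + β ^ 2 * W)
    (dj_tre_cav β γ) (dj_tre_sc β) (dj_cav_sc γ) (by
      intro θ _ _
      have eS : ls (rlv d) K (me K) (lc n) (ith (sc (n := n) (K := K) β N s) (tre N β R) (cav N γ) θ) =
          ST n K d (me K) β N s R θ := by
        rw [hγ]; rfl
      rw [eS]
      have hReg : (ST n K d (me K) β N s R θ).Reg := rs_reg hd hm _ _
      have e1 : (fun (_ : RI n K → ℝ) (x : Fin n → Bool) =>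
          ∑ e, (tre (K := K) N β R x e ^ 2 - cav (K := K) N γ x e ^ 2)) =
          fun _ _ => β ^ 2 / ((N + 1 : ℕ) : ℝ) := by
        funext _ x
        rw [Finset.sum_sub_distrib, sum_tre hNn β hR, sum_cav hNn, hRK, mul_one, hγN]
      rw [e1, hReg.Ex_const]
      have e2 : ∀ l ∈ Finset.range (K + 1), (me K (l + 1) - me K l) *
          -(β ^ 2 * (ST n K d (me K) β N s R θ).pairEx l (fun x x' => |Rov (ph hN') x x' - R₀ l|) +
            β ^ 2 / ((N + 1 : ℕ) : ℝ)) ≤ (me K (l + 1) - me K l) *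
          (ST n K d (me K) β N s R θ).pairEx l (fun x x' =>
            cv (rlv d) l (tre (K := K) N β R) (tre N β R) x x' -
              cv (rlv d) l (cav (K := K) N γ) (cav N γ) x x') := by
        intro l hl
        have hl' : l ≤ K := by have := Finset.mem_range.1 hl; omega
        have hl'' : l ≤ (ST n K d (me K) β N s R θ).K := hl'
        refine mul_le_mul_of_nonneg_left ?_ (rs_p_nonneg hm hl)
        rcases lt_or_ge l d with hld | hld
        · have e3 : (fun x x' => cv (rlv d) l (tre (n := n) (K := K) N β R) (tre N β R) x x' -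
              cv (rlv d) l (cav (n := n) (K := K) N γ) (cav N γ) x x') = fun _ _ => 0 := by
            funext x x'
            rw [cv_tre' hNn hl' β hR, cv_cav_lt hld, hRlt l hld, mul_zero, sub_zero]
          rw [e3, hReg.pairEx_const hl'']
          have e4 : 0 ≤ (ST n K d (me K) β N s R θ).pairEx l
              (fun x x' => |Rov (ph hN') x x' - R₀ l|) :=
            hReg.pairEx_nonneg hl'' fun x x' => abs_nonneg _
          have e5 := mul_nonneg hb2 e4
          have e6 : 0 ≤ β ^ 2 / ((N + 1 : ℕ) : ℝ) := div_nonneg hb2 hN1.le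
          linarith
        rw [← hRge l hld]
        have e3 : -(β ^ 2 * (ST n K d (me K) β N s R θ).pairEx l
            (fun x x' => |Rov (ph hN') x x' - R l|) + β ^ 2 / ((N + 1 : ℕ) : ℝ)) =
            (ST n K d (me K) β N s R θ).pairEx l (fun x x' =>
              (-β ^ 2) * |Rov (ph hN') x x' - R l| + -(β ^ 2 / ((N + 1 : ℕ) : ℝ))) := by
          rw [hReg.pairEx_add hl'' (fun x x' => (-β ^ 2) * |Rov (ph hN') x x' - R l|)
            (fun _ _ => -(β ^ 2 / ((N + 1 : ℕ) : ℝ))), hReg.pairEx_const_mul,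
            hReg.pairEx_const hl'']
          ring
        rw [e3]
        refine hReg.pairEx_mono hl'' fun x x' => ?_
        rw [cv_tre' hNn hl' β hR, cv_cav_ge hNn hld]
        obtain ⟨r, hr⟩ : ∃ r, r = Rov (ph hN') x x' := ⟨_, rfl⟩
        obtain ⟨w, hw⟩ : ∃ w, w = sp N x * sp N x' := ⟨_, rfl⟩
        have hr1 : |r| ≤ 1 := by rw [hr]; exact rs_abs_Rov hN' h0 x x'
        have hw1 : |w| = 1 := by
          have a1 := sp_sq hNn x
          have a2 := sp_sq hNn x'
          have a3 : w ^ 2 = 1 := by rw [hw, mul_pow, a1, a2, one_mul]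
          rw [← sq_abs] at a3
          exact (pow_eq_one_iff_of_nonneg (abs_nonneg w) two_ne_zero).1 a3
        rw [← hr, ← hw]
        have e4 : β ^ 2 * w * R l - γ ^ 2 * w * (N * r) =
            w * (β ^ 2 * (R l - r) + β ^ 2 / ((N + 1 : ℕ) : ℝ) * r) := by
          rw [← hγN]; ring
        rw [e4]
        have e5 : |w * (β ^ 2 * (R l - r) + β ^ 2 / ((N + 1 : ℕ) : ℝ) * r)| ≤
            β ^ 2 * |r - R l| + β ^ 2 / ((N + 1 : ℕ) : ℝ) := by
          rw [abs_mul, hw1, one_mul]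
          refine (abs_add_le _ _).trans (add_le_add ?_ ?_)
          · rw [abs_mul, abs_of_nonneg hb2, abs_sub_comm]
          · rw [abs_mul, abs_of_nonneg (div_nonneg hb2 hN1.le)]
            exact mul_le_of_le_one_right (div_nonneg hb2 hN1.le) hr1
        have e6 := (abs_le.1 e5).1
        linarith
      have e7 := Finset.sum_le_sum e2
      have e8 : ∑ l ∈ Finset.range (K + 1), (me K (l + 1) - me K l) *
          -(β ^ 2 * (ST n K d (me K) β N s R θ).pairEx l (fun x x' => |Rov (ph hN') x x' - R₀ l|) +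
            β ^ 2 / ((N + 1 : ℕ) : ℝ)) =
          -(β ^ 2 * ∑ l ∈ Finset.range (K + 1), (me K (l + 1) - me K l) *
            (ST n K d (me K) β N s R θ).pairEx l (fun x x' => |Rov (ph hN') x x' - R₀ l|) +
            β ^ 2 / ((N + 1 : ℕ) : ℝ) * ∑ l ∈ Finset.range (K + 1), (me K (l + 1) - me K l)) := by
        rw [Finset.mul_sum, Finset.mul_sum, ← Finset.sum_add_distrib, ← Finset.sum_neg_distrib]
        exact Finset.sum_congr rfl fun l _ => by ring
      rw [e8, hsum, mul_one] at e7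
      have e9 := mul_le_mul_of_nonneg_left (hdev θ) hb2
      linarith)
  -- (3)
  have h3 := fe_tre (R := R) hd hNn hm hβ hR s
  -- (4)
  have h4 := SC_ge (β := β) hd hN' h0 hm s
  have h5 : ∑ l ∈ Finset.range (K + 1), (me K (l + 1) - me K l) * R l ^ 2 - 2 * W ≤
      ∑ l ∈ Finset.range (K + 1), (me K (l + 1) - me K l) *
        (if d ≤ l then (SN n K d (me K) β N s).pairEx l (fun x x' => Rov (ph hN') x x' ^ 2)
          else 0) := by
    have hReg : (SN n K d (me K) β N s).Reg := rs_reg hd hm _ _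
    have a1 : ∀ l ∈ Finset.range (K + 1), (me K (l + 1) - me K l) * (R l ^ 2 -
        2 * (SN n K d (me K) β N s).pairEx l (fun x x' => |Rov (ph hN') x x' - R₀ l|)) ≤
        (me K (l + 1) - me K l) *
        (if d ≤ l then (SN n K d (me K) β N s).pairEx l (fun x x' => Rov (ph hN') x x' ^ 2)
          else 0) := by
      intro l hl
      have hl' : l ≤ K := by have := Finset.mem_range.1 hl; omega
      have hl'' : l ≤ (SN n K d (me K) β N s).K := hl'
      refine mul_le_mul_of_nonneg_left ?_ (rs_p_nonneg hm hl)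
      rcases lt_or_ge l d with hld | hld
      · rw [if_neg (not_le.2 hld), hRlt l hld]
        have e4 : 0 ≤ (SN n K d (me K) β N s).pairEx l
            (fun x x' => |Rov (ph hN') x x' - R₀ l|) :=
          hReg.pairEx_nonneg hl'' fun x x' => abs_nonneg _
        nlinarith
      rw [if_pos hld, ← hRge l hld]
      have a2 : R l ^ 2 - 2 * (SN n K d (me K) β N s).pairEx l
          (fun x x' => |Rov (ph hN') x x' - R l|) =
          (SN n K d (me K) β N s).pairEx l (fun x x' => (-2) * |Rov (ph hN') x x' - R l| +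
            R l ^ 2) := by
        rw [hReg.pairEx_add hl'' (fun x x' => (-2) * |Rov (ph hN') x x' - R l|)
            (fun _ _ => R l ^ 2), hReg.pairEx_const_mul, hReg.pairEx_const hl'']
        ring
      rw [a2]
      refine hReg.pairEx_mono hl'' fun x x' => ?_
      obtain ⟨r, hr⟩ : ∃ r, r = Rov (ph hN') x x' := ⟨_, rfl⟩
      have hr1 : |r| ≤ 1 := by rw [hr]; exact rs_abs_Rov hN' h0 x x'
      have hr2 := abs_le.1 hr1
      have hR' := hRm l hl'
      rw [← hr]
      have a3 := abs_le.1 (le_refl |r - R l|)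
      rcases abs_cases (r - R l) with h | h
      · rw [h.1]
        nlinarith
      · rw [h.1]
        nlinarith
    refine le_trans ?_ (Finset.sum_le_sum a1)
    have a4 : ∑ l ∈ Finset.range (K + 1), (me K (l + 1) - me K l) * (R l ^ 2 -
        2 * (SN n K d (me K) β N s).pairEx l (fun x x' => |Rov (ph hN') x x' - R₀ l|)) =
        ∑ l ∈ Finset.range (K + 1), (me K (l + 1) - me K l) * R l ^ 2 -
        2 * ∑ l ∈ Finset.range (K + 1), (me K (l + 1) - me K l) *
          (SN n K d (me K) β N s).pairEx l (fun x x' => |Rov (ph hN') x x' - R₀ l|) := by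
      rw [Finset.mul_sum, ← Finset.sum_sub_distrib]
      exact Finset.sum_congr rfl fun l _ => by ring
    rw [a4]
    linarith
  have h6 := mul_le_mul_of_nonneg_left h5 (show 0 ≤ β ^ 2 / 4 by positivity)
  rw [← hγ] at h1
  rw [h3, hRK] at h2
  unfold PSK
  have h7 : β ^ 2 / 4 * (1 - ∑ l ∈ Finset.range (K + 1), (me K (l + 1) - me K l) *
        (if d ≤ l then (SN n K d (me K) β N s).pairEx l (fun x x' => Rov (ph hN') x x' ^ 2)
          else 0)) =
      β ^ 2 / 4 - β ^ 2 / 4 * ∑ l ∈ Finset.range (K + 1), (me K (l + 1) - me K l) *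
        (if d ≤ l then (SN n K d (me K) β N s).pairEx l (fun x x' => Rov (ph hN') x x' ^ 2)
          else 0) := by ring
  rw [h7] at h4
  have h8 : β ^ 2 / 4 * (∑ l ∈ Finset.range (K + 1), (me K (l + 1) - me K l) * R l ^ 2 - 2 * W) =
      β ^ 2 / 4 * ∑ l ∈ Finset.range (K + 1), (me K (l + 1) - me K l) * R l ^ 2 -
        β ^ 2 * W / 2 := by ring
  rw [h8] at h6
  have h9 : β ^ 2 / 4 * (1 + ∑ i ∈ Finset.range (K + 1), (me K (i + 1) - me K i) * R i ^ 2) =
      β ^ 2 / 4 + β ^ 2 / 4 * ∑ i ∈ Finset.range (K + 1), (me K (i + 1) - me K i) * R i ^ 2 := by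
    ring
  rw [h9]
  linarith

end Vale.Agent.P146.Ub.Ld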